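import Crest.Agent.R115.FreeBall

/-!
The label cocycle of a labelled set acted on by a free group, skew products, and the counting
estimate showing that for most labellings long paths cannot be followed.
-/

set_option autoImplicit false
set_option linter.unusedSectionVars false

namespace Crest.Agent.R115

open FreeGroup hiding map_mul map_one map_inv norm_mul_le

section
variable {S Q Ω : Type} [DecidableEq S] [DecidableEq Q] [MulAction (FreeGroup S) Ω] (lab : Ω → Q)

/-- generator of the universal skew product -/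
def gen (s : S) : Equiv.Perm (Ω × FreeGroup (S × Q × Q)) where
  toFun p := ((of s : FreeGroup S) • p.1, of (s, lab p.1, lab ((of s : FreeGroup S) • p.1)) * p.2)
  invFun p := ((of s : FreeGroup S)⁻¹ • p.1,
    (of (s, lab ((of s : FreeGroup S)⁻¹ • p.1), lab p.1))⁻¹ * p.2)
  left_inv p := by simp
  right_inv p := by simp

/-- the universal skew product action -/
def Phi : FreeGroup S →* Equiv.Perm (Ω × FreeGroup (S × Q × Q)) := lift (gen lab)

/-- the label cocycle -/
def al (g : FreeGroup S) (ω : Ω) : FreeGroup (S × Q × Q) := (Phi lab g (ω, 1)).2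

lemma Phi_apply (g : FreeGroup S) : ∀ (ω : Ω) (k : FreeGroup (S × Q × Q)),
    Phi lab g (ω, k) = (g • ω, al lab g ω * k) := by
  induction g using FreeGroup.induction_on with
  | C1 => intro ω k; simp [al]
  | of s => intro ω k; simp [al, Phi, gen]
  | inv_of s _ =>
    intro ω k
    simp only [al, Phi, map_inv, lift_apply_of]
    simp [gen, Equiv.Perm.inv_def]
  | mul g h ihg ihh =>
    intro ω k
    simp only [al, map_mul, Equiv.Perm.mul_apply]
    rw [ihh, ihg, ihh, ihg]
    simp [mul_smul, mul_assoc]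

lemma al_one (ω : Ω) : al (S := S) lab 1 ω = 1 := by simp [al]

lemma al_mul (g h : FreeGroup S) (ω : Ω) : al lab (g * h) ω = al lab g (h • ω) * al lab h ω := by
  conv_lhs => rw [al, map_mul, Equiv.Perm.mul_apply, Phi_apply, Phi_apply]
  simp

/-- the labelled letter -/
def letter (x : S × Bool) (ω : Ω) : (S × Q × Q) × Bool :=
  if x.2 then ((x.1, lab ω, lab ((of x.1 : FreeGroup S) • ω)), true)
  else ((x.1, lab ((of x.1 : FreeGroup S)⁻¹ • ω), lab ω), false)

lemma al_single (x : S × Bool) (ω : Ω) :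
    al lab (FreeGroup.mk [x]) ω = FreeGroup.mk [letter lab x ω] := by
  obtain ⟨s, b⟩ := x
  cases b
  · simp only [letter, mk_false, Bool.false_eq_true, if_false]
    simp only [al, Phi, map_inv, lift_apply_of]
    simp [gen, Equiv.Perm.inv_def]
  · simp only [letter, mk_true, if_true]
    simp [al, Phi, gen]

/-- the labelled word -/
def lw : List (S × Bool) → Ω → List ((S × Q × Q) × Bool)
  | [], _ => []
  | x :: l, ω => letter lab x (FreeGroup.mk l • ω) :: lw l ω

lemma al_mk (l : List (S × Bool)) (ω : Ω) :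
    al lab (FreeGroup.mk l) ω = FreeGroup.mk (lw lab l ω) := by
  induction l with
  | nil => rw [← one_eq_mk, al_one]; rfl
  | cons x l ih => rw [mk_cons, al_mul, ih, al_single, lw, mk_cons (letter _ _ _) (lw lab l ω)]

lemma lw_map (l : List (S × Bool)) (ω : Ω) :
    (lw lab l ω).map (fun y => (y.1.1, y.2)) = l := by
  induction l with
  | nil => rfl
  | cons x l ih =>
    obtain ⟨s, b⟩ := x
    cases b <;> simp [lw, ih, letter]

lemma lw_length (l : List (S × Bool)) (ω : Ω) : (lw lab l ω).length = l.length := by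
  conv_rhs => rw [← lw_map lab l ω]
  simp

lemma lw_reduced {l : List (S × Bool)} (hl : IsReduced l) (ω : Ω) : IsReduced (lw lab l ω) := by
  rw [← lw_map lab l ω] at hl
  unfold FreeGroup.IsReduced at hl ⊢
  rw [List.isChain_map] at hl
  exact hl.imp fun a b h hab => h (by simp [hab])

lemma al_toWord (g : FreeGroup S) (ω : Ω) : (al lab g ω).toWord = lw lab g.toWord ω := by
  conv_lhs => rw [← mk_toWord (x := g), al_mk, toWord_mk]
  exact (lw_reduced lab isReduced_toWord ω).reduce_eq

lemma al_norm (g : FreeGroup S) (ω : Ω) : (al lab g ω).norm = g.norm := by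
  rw [norm_eq_length, al_toWord, lw_length, norm_eq_length]

lemma al_proj (g : FreeGroup S) (ω : Ω) : FreeGroup.map Prod.fst (al lab g ω) = g := by
  conv_lhs => rw [← mk_toWord (x := g), al_mk, map.mk, lw_map, mk_toWord]

lemma lab_eq_of_lw_eq (l : List (S × Bool)) (ω ω' : Ω) (h : lw lab l ω = lw lab l ω') :
    ∀ i, i < l.length →
      lab (FreeGroup.mk (l.drop (i + 1)) • ω) = lab (FreeGroup.mk (l.drop (i + 1)) • ω') := by
  induction l with
  | nil => intro i hi; simp at hi
  | cons x l ih =>
    simp only [lw, List.cons.injEq] at h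
    intro i hi
    cases i with
    | zero =>
      obtain ⟨s, b⟩ := x
      have h1 := h.1
      cases b
      · simp only [letter, Bool.false_eq_true, if_false, Prod.mk.injEq] at h1
        simpa using h1.1.2.2
      · simp only [letter, if_true, Prod.mk.injEq] at h1
        simpa using h1.1.2.1
    | succ i =>
      simpa using ih h.2 i (by simpa using hi)

lemma al_natural {Ω' : Type} [MulAction (FreeGroup S) Ω'] (lab' : Ω' → Q) (f : Ω → Ω')
    (hf : ∀ (g : FreeGroup S) ω, f (g • ω) = g • f ω) (hl : ∀ ω, lab' (f ω) = lab ω)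
    (g : FreeGroup S) (ω : Ω) : al lab' g (f ω) = al lab g ω := by
  have : ∀ l : List (S × Bool), lw lab' l (f ω) = lw lab l ω := by
    intro l
    induction l with
    | nil => rfl
    | cons x l ih => simp only [lw, ih, letter, ← hf, hl]
  rw [← mk_toWord (x := g), al_mk, al_mk, this]

/-- The skew product of a labelled set with a set acted on by the labelled free group. -/
@[ext] structure Skew (S : Type) {Q Ω : Type} (lab : Ω → Q) (K : Type) : Type where
  /-- base point -/
  ω : Ω
  /-- colour -/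
  κ : K

instance (K : Type) [MulAction (FreeGroup (S × Q × Q)) K] :
    MulAction (FreeGroup S) (Skew S lab K) where
  smul g x := ⟨g • x.ω, al lab g x.ω • x.κ⟩
  one_smul x := by
    apply Skew.ext
    · change (1 : FreeGroup S) • x.ω = x.ω
      simp
    · change al lab (1 : FreeGroup S) x.ω • x.κ = x.κ
      simp [al_one]
  mul_smul g h x := by
    apply Skew.ext
    · change (g * h) • x.ω = g • h • x.ω
      rw [mul_smul]
    · change al lab (g * h) x.ω • x.κ = al lab g (h • x.ω) • al lab h x.ω • x.κ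
      rw [al_mul, mul_smul]

lemma Skew.smul_ω (K : Type) [MulAction (FreeGroup (S × Q × Q)) K] (g : FreeGroup S)
    (x : Skew S lab K) : (g • x).ω = g • x.ω := rfl

lemma Skew.smul_κ (K : Type) [MulAction (FreeGroup (S × Q × Q)) K] (g : FreeGroup S)
    (x : Skew S lab K) : (g • x).κ = al lab g x.ω • x.κ := rfl

/-- the skew product as a product -/
def Skew.equivProd (K : Type) : Skew S lab K ≃ Ω × K where
  toFun x := (x.ω, x.κ)
  invFun p := ⟨p.1, p.2⟩
  left_inv _ := rfl
  right_inv _ := rfl

end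

/-- Level `n`: a point of a finite set free on the `n`-ball, with an arbitrary labelling. -/
@[ext] structure Lv (n : ℕ) : Type where
  /-- vertex -/
  v : FB Bool n
  /-- labelling -/
  ξ : FB Bool n → Fin 8

/-- level as a product -/
def Lv.equivProd (n : ℕ) : Lv n ≃ FB Bool n × (FB Bool n → Fin 8) where
  toFun x := (x.v, x.ξ)
  invFun p := ⟨p.1, p.2⟩
  left_inv _ := rfl
  right_inv _ := rfl

noncomputable instance (n : ℕ) : DecidableEq (FB Bool n) := Classical.decEq _

noncomputable instance (n : ℕ) : Fintype (Lv n) := Fintype.ofEquiv _ (Lv.equivProd n).symm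

instance (n : ℕ) : Nonempty (Lv n) := ⟨⟨⟨1⟩, fun _ => 0⟩⟩

noncomputable instance (n : ℕ) : MulAction (FreeGroup Bool) (Lv n) where
  smul g x := ⟨g • x.v, x.ξ⟩
  one_smul x := by
    apply Lv.ext
    · change (1 : FreeGroup Bool) • x.v = x.v
      simp
    · rfl
  mul_smul g h x := by
    apply Lv.ext
    · change (g * h) • x.v = g • h • x.v
      rw [mul_smul]
    · rfl

lemma Lv.smul_v {n : ℕ} (g : FreeGroup Bool) (x : Lv n) : (g • x).v = g • x.v := rfl
lemma Lv.smul_ξ {n : ℕ} (g : FreeGroup Bool) (x : Lv n) : (g • x).ξ = x.ξ := rfl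

/-- the label of a point of level `n` -/
def labL (n : ℕ) (x : Lv n) : Fin 8 := x.ξ x.v

lemma fibre_card (n L : ℕ) (hn : 2 * L ≤ n) (v : FB Bool n) (γ : FreeGroup Bool)
    (hγ : γ.norm = L) (w : FreeGroup (Bool × Fin 8 × Fin 8)) :
    (Finset.univ.filter fun ξ : FB Bool n → Fin 8 => al (labL n) γ ⟨v, ξ⟩ = w).card * 8 ^ L ≤
      8 ^ Fintype.card (FB Bool n) := by
  classical
  let pt : Fin L → FB Bool n := fun i => FreeGroup.mk (γ.toWord.drop (i + 1)) • v
  have hlen : γ.toWord.length = L := hγ
  have hnorm : ∀ i : Fin L, (FreeGroup.mk (γ.toWord.drop (i + 1))).norm = L - (i + 1) := by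
    intro i
    rw [norm_mk_of_reduced (isReduced_toWord.infix (List.drop_suffix _ _).isInfix),
      List.length_drop, hlen]
  have hinj : Function.Injective pt := by
    intro i j hij
    have h1 : (FreeGroup.mk (γ.toWord.drop (i + 1)))⁻¹ * FreeGroup.mk (γ.toWord.drop (j + 1))
        = 1 := by
      refine FB_free n _ ((FreeGroup.norm_mul_le _ _).trans ?_) v ?_
      · rw [norm_inv_eq, hnorm, hnorm]; omega
      · rw [mul_smul]
        exact inv_smul_eq_iff.2 hij.symm
    rw [inv_mul_eq_one] at h1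
    have h2 := congrArg FreeGroup.norm h1
    rw [hnorm, hnorm] at h2
    have := i.2
    have := j.2
    exact Fin.ext (by omega)
  let P : Finset (FB Bool n) := Finset.univ.image pt
  have hP : P.card = L := by
    rw [Finset.card_image_of_injective _ hinj]; simp
  have hPle : L ≤ Fintype.card (FB Bool n) := hP ▸ Finset.card_le_univ P
  have h1 : (Finset.univ.filter fun ξ : FB Bool n → Fin 8 => al (labL n) γ ⟨v, ξ⟩ = w).card ≤
      Fintype.card ({u // u ∉ P} → Fin 8) := by
    rw [← Finset.card_univ]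
    refine Finset.card_le_card_of_injOn (fun ξ => fun u => ξ u.1) (by simp) ?_
    intro ξ hξ ξ' hξ' h
    simp only [Finset.coe_filter, Finset.mem_univ, true_and, Set.mem_ofPred_eq] at hξ hξ'
    have h2 : lw (labL n) γ.toWord ⟨v, ξ⟩ = lw (labL n) γ.toWord ⟨v, ξ'⟩ := by
      rw [← al_toWord, ← al_toWord, hξ, hξ']
    funext u
    by_cases hu : u ∈ P
    · obtain ⟨i, -, rfl⟩ := Finset.mem_image.1 hu
      exact lab_eq_of_lw_eq (labL n) γ.toWord _ _ h2 i (by rw [hlen]; exact i.2)
    · exact congrFun h ⟨u, hu⟩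
  have h2 : Fintype.card ({u // u ∉ P} → Fin 8) = 8 ^ (Fintype.card (FB Bool n) - L) := by
    rw [Fintype.card_fun, Fintype.card_fin, Fintype.card_subtype_compl, Fintype.card_coe, hP]
  calc _ ≤ 8 ^ (Fintype.card (FB Bool n) - L) * 8 ^ L := Nat.mul_le_mul_right _ (h2 ▸ h1)
    _ = _ := by rw [← pow_add, Nat.sub_add_cancel hPle]

open Classical in
lemma bad_card (N n : ℕ) (hn : 2 * (2 * N + 1) ≤ n) (v : FB Bool n)
    (W : FreeGroup Bool → Finset (FreeGroup (Bool × Fin 8 × Fin 8))) (hW : ∀ γ, (W γ).card ≤ N) :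
    2 * (Finset.univ.filter fun ξ : FB Bool n → Fin 8 =>
      ∃ γ : FreeGroup Bool, γ.norm = 2 * N + 1 ∧ al (labL n) γ ⟨v, ξ⟩ ∈ W γ).card ≤
      8 ^ Fintype.card (FB Bool n) := by
  set L := 2 * N + 1 with hL
  have hsub : (Finset.univ.filter fun ξ : FB Bool n → Fin 8 =>
      ∃ γ : FreeGroup Bool, γ.norm = L ∧ al (labL n) γ ⟨v, ξ⟩ ∈ W γ) ⊆
      (sphF Bool L).biUnion fun γ => (W γ).biUnion fun w =>
        Finset.univ.filter fun ξ : FB Bool n → Fin 8 => al (labL n) γ ⟨v, ξ⟩ = w := by
    intro ξ hξ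
    simp only [Finset.mem_filter, Finset.mem_univ, true_and] at hξ
    obtain ⟨γ, h1, h2⟩ := hξ
    simp only [Finset.mem_biUnion, Finset.mem_filter, Finset.mem_univ, true_and]
    exact ⟨γ, mem_sphF.2 h1, _, h2, rfl⟩
  have h1 := (Finset.card_le_card hsub).trans Finset.card_biUnion_le
  have h2 : (∑ γ ∈ sphF Bool L, ((W γ).biUnion fun w =>
        Finset.univ.filter fun ξ : FB Bool n → Fin 8 => al (labL n) γ ⟨v, ξ⟩ = w).card) * 8 ^ L ≤
      4 ^ L * (N * 8 ^ Fintype.card (FB Bool n)) := by
    rw [Finset.sum_mul]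
    refine (Finset.sum_le_card_nsmul _ _ (N * 8 ^ Fintype.card (FB Bool n)) ?_).trans ?_
    · intro γ hγ
      refine (Nat.mul_le_mul_right _ Finset.card_biUnion_le).trans ?_
      rw [Finset.sum_mul]
      refine (Finset.sum_le_card_nsmul _ _ (8 ^ Fintype.card (FB Bool n)) ?_).trans ?_
      · intro w _
        exact fibre_card n L hn v γ (mem_sphF.1 hγ) w
      · rw [smul_eq_mul]
        exact Nat.mul_le_mul_right _ (hW γ)
    · rw [smul_eq_mul]
      refine Nat.mul_le_mul_right _ ?_
      simpa using card_sphF (S := Bool) L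
  have h3 : 2 * N ≤ 2 ^ L := by
    have := Nat.lt_two_pow_self (n := L)
    omega
  have h4 : (8 : ℕ) ^ L = 2 ^ L * 4 ^ L := by rw [← mul_pow]; norm_num
  have h5 : 0 < (8 : ℕ) ^ L := by positivity
  refine Nat.le_of_mul_le_mul_right ?_ h5
  calc _ ≤ 2 * (4 ^ L * (N * 8 ^ Fintype.card (FB Bool n))) := by
        rw [mul_assoc]
        exact Nat.mul_le_mul_left _ ((Nat.mul_le_mul_right _ h1).trans h2)
    _ = (2 * N) * 4 ^ L * 8 ^ Fintype.card (FB Bool n) := by ring
    _ ≤ 2 ^ L * 4 ^ L * 8 ^ Fintype.card (FB Bool n) :=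
        Nat.mul_le_mul_right _ (Nat.mul_le_mul_right _ h3)
    _ = _ := by rw [h4]; ring

end Crest.Agent.R115
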