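import Crest.Agent.R115.Gadget

/-!
The contradiction for the abstract gadget.
-/

set_option autoImplicit false
set_option linter.unusedSectionVars false

namespace Crest.Agent.R115

open FreeGroup hiding map_mul map_one map_inv norm_mul_le

variable {M K S' : Type} [DecidableEq S'] [Fintype S'] [MulAction (FreeGroup Bool) M]
  [MulAction (FreeGroup S') K]

theorem no_op_aux {c : M → K} {α : FreeGroup Bool → M → FreeGroup S'}
    {p : FreeGroup S' →* FreeGroup Bool} {r ℓ : ℕ} (H : Hyp c α p r ℓ)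
    (j : K → M) (hj : ∀ κ, c (j κ) = κ) (lam : ℝ) (hlam : 0 ≤ lam)
    (hr : 32 * lam ≤ r) (hℓ : 32 * (2 * lam * (r + 1) + 1) ≤ ℓ)
    (B : Finset M) (μ : M → M → ℝ)
    (H1 : ∀ (f : M → ℝ) (Lp : ℝ), 0 < Lp → (∀ x y, |f x - f y| ≤ Lp * DD S' c r ℓ x y) →
      (∀ x, |f x| ≤ Lp * ℓ) → ∀ x y,
        |∑ b ∈ B, μ x b * f b - ∑ b ∈ B, μ y b * f b| ≤ lam * DD S' c r ℓ x y * Lp)
    (H2 : ∀ (f : M → ℝ) (Lp : ℝ), 0 < Lp → (∀ x y, |f x - f y| ≤ Lp * DD S' c r ℓ x y) →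
      (∀ x, |f x| ≤ Lp * ℓ) → ∀ κ, |∑ b ∈ B, μ (j κ) b * f b - f (j κ)| ≤ lam * Lp)
    (L : ℕ) (hL : 0 < L) {Z : Type} [Fintype Z] [Nonempty Z] [MulAction (FreeGroup Bool) Z]
    (ι : Z → M) (hι : ∀ (g : FreeGroup Bool) z, ι (g • z) = g • ι z)
    (hfree : ∀ (z : Z) (g : FreeGroup Bool), g.norm ≤ 2 * L → g • z = z → g = 1)
    (hbad : ∀ T : Finset Z, (∀ z ∈ T, ∃ (γ : FreeGroup Bool) (b₀ : M) (k₀ k' : FreeGroup S'),
      γ.norm = L ∧ b₀ ∈ B ∧ k₀.norm < ℓ ∧ k'.norm < ℓ ∧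
        α γ (ι z) = k'⁻¹ * α (p k' * γ * (p k₀)⁻¹) b₀ * k₀) → 2 * T.card ≤ Fintype.card Z) :
    False := by
  classical
  have hr0 : (0 : ℝ) < r := by exact_mod_cast H.r_pos
  have hrℓ : (r : ℝ) ≤ ℓ := by exact_mod_cast H.r_le
  have hℓ0 : (0 : ℝ) < ℓ := hr0.trans_le hrℓ
  have hℓ1 : (1 : ℝ) ≤ ℓ := by exact_mod_cast H.r_pos.trans_le H.r_le
  have hℓn : 0 < ℓ := H.r_pos.trans_le H.r_le
  -- every functional is close to the evaluation at the anchor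
  have H3 : ∀ (f : M → ℝ) (Lp : ℝ), 0 < Lp → (∀ x y, |f x - f y| ≤ Lp * DD S' c r ℓ x y) →
      (∀ x, |f x| ≤ Lp * ℓ) → ∀ x,
        |∑ b ∈ B, μ x b * f b - f (j (c x))| ≤ lam * (r + 1) * Lp := by
    intro f Lp h0 h1 h2 x
    have a1 := H1 f Lp h0 h1 h2 x (j (c x))
    have a2 := H2 f Lp h0 h1 h2 (c x)
    have a3 : DD S' c r ℓ x (j (c x)) ≤ r := by
      have := td_le (S := Bool) r x (j (c x))
      unfold DD
      rw [hj, td_self]
      exact_mod_cast (by omega)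
    have a4 : lam * DD S' c r ℓ x (j (c x)) * Lp ≤ lam * r * Lp := by gcongr
    have a5 := abs_sub_le (∑ b ∈ B, μ x b * f b) (∑ b ∈ B, μ (j (c x)) b * f b) (f (j (c x)))
    linarith
  let 𝒞 : Finset (Set (Z × M)) := (Finset.univ ×ˢ B).image (cl S' c r ℓ ι)
  let m : Z → Set (Z × M) → ℝ := fun z C =>
    ∑ b ∈ B, if cl S' c r ℓ ι (z, b) = C then μ (ι z) b * Wt S' ℓ (c (ι z)) (c b) else 0
  have hm : ∀ (z : Z) (h : Set (Z × M) → ℝ),
      ∑ C ∈ 𝒞, h C * m z C = ∑ b ∈ B, μ (ι z) b * tf S' c r ℓ ι z h b := by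
    intro z h
    simp only [m, Finset.mul_sum]
    rw [Finset.sum_comm]
    refine Finset.sum_congr rfl fun b hb => ?_
    have hmem : cl S' c r ℓ ι (z, b) ∈ 𝒞 :=
      Finset.mem_image.2 ⟨(z, b), by simp [hb], rfl⟩
    simp only [mul_ite, mul_zero]
    rw [Finset.sum_ite_eq, if_pos hmem, tf]
    ring
  -- (a) total mass
  have ha : ∀ z, 1 / 2 ≤ ∑ C ∈ 𝒞, |m z C| := by
    intro z
    have h1 := hm z (fun _ => 1)
    have h2 := H3 (fun b => Wt S' ℓ (c (ι z)) (c b)) (1 / ℓ) (by positivity)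
      (fun x y => (Wt_lip_right _ _ _ _).trans (by
        have := td_le_DD' (S' := S') c r ℓ x y
        rw [one_div, ← div_eq_inv_mul]
        gcongr))
      (fun x => by
        rw [abs_of_nonneg (Wt_nonneg _ _ _), one_div, inv_mul_cancel₀ hℓ0.ne']
        exact Wt_le_one _ _ _) (ι z)
    simp only [hj, Wt_self] at h2
    simp only [tf, mul_one, one_mul] at h1
    have h3 : lam * (r + 1) * (1 / ℓ) ≤ 1 / 2 := by
      rw [mul_one_div, div_le_iff₀ hℓ0]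
      nlinarith
    have h4 : ∑ C ∈ 𝒞, m z C ≤ ∑ C ∈ 𝒞, |m z C| := Finset.sum_le_sum fun C _ => le_abs_self _
    have h5 := (abs_le.1 h2).1
    linarith
  -- (b) almost invariance
  have hb : ∀ (z : Z) (s : Bool),
      ∑ C ∈ 𝒞, |m ((of s : FreeGroup Bool) • z) C - m z C| ≤ 3 / 32 := by
    intro z s
    let h : Set (Z × M) → ℝ := fun C =>
      if 0 ≤ m ((of s : FreeGroup Bool) • z) C - m z C then 1 else -1
    have hh : ∀ C, |h C| ≤ 1 := fun C => by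
      simp only [h]; split_ifs <;> simp
    have e1 : ∑ C ∈ 𝒞, |m ((of s : FreeGroup Bool) • z) C - m z C| =
        ∑ C ∈ 𝒞, h C * m ((of s : FreeGroup Bool) • z) C - ∑ C ∈ 𝒞, h C * m z C := by
      rw [← Finset.sum_sub_distrib]
      refine Finset.sum_congr rfl fun C _ => ?_
      simp only [h]
      split_ifs with h0
      · rw [abs_of_nonneg h0]; ring
      · rw [abs_of_neg (not_le.1 h0)]; ring
    rw [e1, hm, hm]
    have a1 := H1 (tf S' c r ℓ ι z h) (2 / r) (by positivity)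
      (tf_lip c H.r_pos H.r_le ι z hh)
      (fun x => (tf_abs_le c r ℓ ι z hh x).trans (by
        rw [div_mul_eq_mul_div, le_div_iff₀ hr0]; linarith))
      (ι ((of s : FreeGroup Bool) • z)) (ι z)
    have a2 : DD S' c r ℓ (ι ((of s : FreeGroup Bool) • z)) (ι z) ≤ 1 := by
      rw [hι]; exact DD_shift H _ s
    have a3 : lam * DD S' c r ℓ (ι ((of s : FreeGroup Bool) • z)) (ι z) * (2 / r) ≤ 1 / 16 := by
      calc _ ≤ lam * 1 * (2 / r) := by gcongr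
        _ = 2 * lam / r := by ring
        _ ≤ _ := by rw [div_le_iff₀ hr0]; linarith
    have a4 := tf_shift H hι z s hh
    have a5 := H3 (fun b => tf S' c r ℓ ι ((of s : FreeGroup Bool) • z) h b - tf S' c r ℓ ι z h b)
      (2 / ℓ) (by positivity)
      (fun x y => by
        by_cases hxy : x = y
        · subst hxy; simp [DD_self]
        · have b1 := one_le_DD (S' := S') c H.r_pos ℓ hxy
          have b2 := abs_sub
            (tf S' c r ℓ ι ((of s : FreeGroup Bool) • z) h x - tf S' c r ℓ ι z h x)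
            (tf S' c r ℓ ι ((of s : FreeGroup Bool) • z) h y - tf S' c r ℓ ι z h y)
          have b3 := a4 x
          have b4 := a4 y
          calc _ ≤ 1 / (ℓ : ℝ) + 1 / ℓ := by linarith
            _ = 2 / ℓ * 1 := by ring
            _ ≤ _ := by gcongr)
      (fun x => (a4 x).trans (by
        rw [div_mul_cancel₀ _ hℓ0.ne', div_le_iff₀ hℓ0]; linarith))
      (ι ((of s : FreeGroup Bool) • z))
    have a6 := a4 (j (c (ι ((of s : FreeGroup Bool) • z))))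
    have a7 : lam * (r + 1) * (2 / ℓ) + 1 / ℓ ≤ 1 / 32 := by
      have : lam * (r + 1) * (2 / ℓ) + 1 / ℓ = (2 * lam * (r + 1) + 1) / ℓ := by ring
      rw [this, div_le_iff₀ hℓ0]; linarith
    simp only [mul_sub, Finset.sum_sub_distrib] at a5
    have a8 := (abs_le.1 a1).2
    have a9 := (abs_le.1 a5).2
    have a10 := (abs_le.1 a6).2
    linarith
  -- good points and good classes
  let bad : Z → Prop := fun z => ∃ (γ : FreeGroup Bool) (b₀ : M) (k₀ k' : FreeGroup S'),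
      γ.norm = L ∧ b₀ ∈ B ∧ k₀.norm < ℓ ∧ k'.norm < ℓ ∧
        α γ (ι z) = k'⁻¹ * α (p k' * γ * (p k₀)⁻¹) b₀ * k₀
  have hsupp : ∀ z C, m z C ≠ 0 →
      ∃ b ∈ B, cl S' c r ℓ ι (z, b) = C ∧ td S' ℓ (c (ι z)) (c b) < ℓ := by
    intro z C hz
    obtain ⟨b, hb, hb'⟩ := Finset.exists_ne_zero_of_sum_ne_zero hz
    by_cases hC : cl S' c r ℓ ι (z, b) = C
    · rw [if_pos hC] at hb'
      exact ⟨b, hb, hC, near_of_Wt_ne hℓn (right_ne_zero_of_mul hb')⟩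
    · rw [if_neg hC] at hb'; exact absurd rfl hb'
  let goodC : Set (Z × M) → Prop := fun C => ∃ z, ¬ bad z ∧ m z C ≠ 0
  have hd : ∀ C, goodC C →
      ∑ z, |m z C| ≤ ∑ s : Bool, ∑ z, |m ((of s : FreeGroup Bool) • z) C - m z C| := by
    rintro C ⟨z₀, hz₀, hz₀'⟩
    obtain ⟨b₀, hb₀, hC₀, hn₀⟩ := hsupp z₀ C hz₀'
    obtain ⟨k₀, hk₀, hk₀'⟩ := td_spec hn₀
    refine expansion z₀ L (hfree z₀) (fun z => m z C) ?_
    intro z hz
    obtain ⟨b, -, hC, -⟩ := hsupp z C hz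
    obtain ⟨γ, -, h1, h2, -⟩ := chain H hι hL z₀ b₀ k₀ (hk₀.trans_lt hn₀) hk₀'
      (fun γ k' e1 e2 e3 => hz₀ ⟨γ, b₀, k₀, k', e1, hb₀, hk₀.trans_lt hn₀, e2, e3⟩) (z, b)
      (chain_of_cl_eq (hC₀.trans hC.symm))
    exact ⟨γ, h1, h2⟩
  have hcard : 2 * (Finset.univ.filter bad).card ≤ Fintype.card Z :=
    hbad _ fun z hz => (Finset.mem_filter.1 hz).2
  have hcard2 := Finset.card_filter_add_card_filter_not (s := (Finset.univ : Finset Z)) bad
  rw [Finset.card_univ] at hcard2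
  have hcard3 : (Fintype.card Z : ℝ) ≤ 2 * (Finset.univ.filter fun z => ¬ bad z).card := by
    exact_mod_cast (by omega)
  have hpos : (0 : ℝ) < Fintype.card Z := by exact_mod_cast Fintype.card_pos
  have s1 : ((Finset.univ.filter fun z => ¬ bad z).card : ℝ) * (1 / 2) ≤
      ∑ z ∈ Finset.univ.filter fun z => ¬ bad z, ∑ C ∈ 𝒞.filter goodC, |m z C| := by
    rw [← nsmul_eq_mul]
    refine Finset.card_nsmul_le_sum _ _ _ fun z hz => (ha z).trans (le_of_eq ?_)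
    rw [Finset.sum_filter]
    refine Finset.sum_congr rfl fun C _ => ?_
    split_ifs with hC
    · rfl
    · by_contra hne
      exact hC ⟨z, (Finset.mem_filter.1 hz).2, fun h0 => hne (by rw [h0, abs_zero])⟩
  have s2 : ∑ z ∈ Finset.univ.filter (fun z => ¬ bad z), ∑ C ∈ 𝒞.filter goodC, |m z C| ≤
      ∑ z, ∑ C ∈ 𝒞.filter goodC, |m z C| :=
    Finset.sum_le_sum_of_subset_of_nonneg (Finset.filter_subset _ _)
      fun z _ _ => Finset.sum_nonneg fun C _ => abs_nonneg _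
  have s3 : ∑ z, ∑ C ∈ 𝒞.filter goodC, |m z C| ≤
      ∑ C ∈ 𝒞, ∑ s : Bool, ∑ z, |m ((of s : FreeGroup Bool) • z) C - m z C| := by
    rw [Finset.sum_comm]
    refine (Finset.sum_le_sum fun C hC => hd C (Finset.mem_filter.1 hC).2).trans ?_
    exact Finset.sum_le_sum_of_subset_of_nonneg (Finset.filter_subset _ _)
      fun C _ _ => Finset.sum_nonneg fun s _ => Finset.sum_nonneg fun z _ => abs_nonneg _
  have s4 : ∑ C ∈ 𝒞, ∑ s : Bool, ∑ z, |m ((of s : FreeGroup Bool) • z) C - m z C| ≤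
      ∑ s : Bool, ∑ z : Z, (3 / 32 : ℝ) := by
    rw [Finset.sum_comm]
    refine Finset.sum_le_sum fun s _ => ?_
    rw [Finset.sum_comm]
    exact Finset.sum_le_sum fun z _ => hb z s
  simp only [Finset.sum_const, Finset.card_univ, Fintype.card_bool, nsmul_eq_mul] at s4
  push_cast at s4
  linarith

theorem no_op {c : M → K} {α : FreeGroup Bool → M → FreeGroup S'}
    {p : FreeGroup S' →* FreeGroup Bool} {r ℓ : ℕ} (H : Hyp c α p r ℓ)
    (j : K → M) (hj : ∀ κ, c (j κ) = κ) (lam : ℝ) (hlam : 0 ≤ lam)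
    (hr : 32 * lam ≤ r) (hℓ : 32 * (2 * lam * (r + 1) + 1) ≤ ℓ)
    (hZ : ∀ N : ℕ, ∃ (L : ℕ) (Z : Type) (_ : Fintype Z) (_ : Nonempty Z)
      (_ : MulAction (FreeGroup Bool) Z) (ι : Z → M), 0 < L ∧
      (∀ (g : FreeGroup Bool) z, ι (g • z) = g • ι z) ∧
      (∀ (z : Z) (g : FreeGroup Bool), g.norm ≤ 2 * L → g • z = z → g = 1) ∧
      ∀ W : FreeGroup Bool → Finset (FreeGroup S'), (∀ γ, (W γ).card ≤ N) →
        ∀ T : Finset Z, (∀ z ∈ T, ∃ γ : FreeGroup Bool, γ.norm = L ∧ α γ (ι z) ∈ W γ) →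
          2 * T.card ≤ Fintype.card Z)
    (B : Finset M) (μ : M → M → ℝ)
    (H1 : ∀ (f : M → ℝ) (Lp : ℝ), 0 < Lp → (∀ x y, |f x - f y| ≤ Lp * DD S' c r ℓ x y) →
      (∀ x, |f x| ≤ Lp * ℓ) → ∀ x y,
        |∑ b ∈ B, μ x b * f b - ∑ b ∈ B, μ y b * f b| ≤ lam * DD S' c r ℓ x y * Lp)
    (H2 : ∀ (f : M → ℝ) (Lp : ℝ), 0 < Lp → (∀ x y, |f x - f y| ≤ Lp * DD S' c r ℓ x y) →
      (∀ x, |f x| ≤ Lp * ℓ) → ∀ κ, |∑ b ∈ B, μ (j κ) b * f b - f (j κ)| ≤ lam * Lp) :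
    False := by
  classical
  obtain ⟨L, Z, _, _, _, ι, hL, hι, hfree, hbad⟩ := hZ (B ×ˢ ballF S' ℓ ×ˢ ballF S' ℓ).card
  refine no_op_aux H j hj lam hlam hr hℓ B μ H1 H2 L hL ι hι hfree fun T hT => ?_
  refine hbad (fun γ => (B ×ˢ ballF S' ℓ ×ˢ ballF S' ℓ).image fun q =>
    q.2.2⁻¹ * α (p q.2.2 * γ * (p q.2.1)⁻¹) q.1 * q.2.1) (fun γ => Finset.card_image_le) T ?_
  intro z hz
  obtain ⟨γ, b₀, k₀, k', h1, h2, h3, h4, h5⟩ := hT z hz
  refine ⟨γ, h1, Finset.mem_image.2 ⟨(b₀, k₀, k'), ?_, h5.symm⟩⟩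
  simp only [Finset.mem_product, mem_ballF]
  exact ⟨h2, h3.le, h4.le⟩

end Crest.Agent.R115
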