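import Crest.Agent.R115.Cocycle
import Crest.Agent.R115.NoOp

/-!
The concrete gadget, transported to `ℕ`.
-/

set_option autoImplicit false
set_option linter.unusedSectionVars false

namespace Crest.Agent.R115

open FreeGroup hiding map_mul map_one map_inv norm_mul_le

/-- all levels together -/
abbrev Om : Type := Σ n : ℕ, Lv n

/-- labels on all levels -/
def labO (ω : Om) : Fin 8 := labL ω.1 ω.2

/-- labelled generators -/
abbrev SS : Type := Bool × Fin 8 × Fin 8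

/-- the point set of the gadget -/
abbrev GM (ρ : ℕ) : Type := Skew Bool labO (FB SS ρ)

instance (ρ : ℕ) : Countable (GM ρ) := (Skew.equivProd (S := Bool) labO (FB SS ρ)).injective.countable

instance (ρ : ℕ) : Infinite (GM ρ) :=
  Infinite.of_surjective (fun x : GM ρ => x.ω.1) fun n =>
    ⟨⟨⟨n, Classical.arbitrary _⟩, Classical.arbitrary _⟩, rfl⟩

noncomputable instance (n ρ : ℕ) : Fintype (Skew Bool (labL n) (FB SS ρ)) :=
  Fintype.ofEquiv _ (Skew.equivProd (S := Bool) (labL n) (FB SS ρ)).symm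

instance (n ρ : ℕ) : Nonempty (Skew Bool (labL n) (FB SS ρ)) :=
  ⟨⟨Classical.arbitrary _, Classical.arbitrary _⟩⟩

lemma al_labO (n : ℕ) (g : FreeGroup Bool) (x : Lv n) :
    al labO g (⟨n, x⟩ : Om) = al (labL n) g x :=
  al_natural (labL n) labO (fun x => (⟨n, x⟩ : Om)) (fun _ _ => rfl) (fun _ => rfl) g x

lemma hyp_GM (r ℓ : ℕ) (hr : 0 < r) (hrℓ : r ≤ ℓ) :
    Hyp (M := GM (2 * ℓ + r)) (fun x => x.κ) (fun g x => al labO g x.ω)
      (FreeGroup.map Prod.fst) r ℓ where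
  mul g h x := al_mul labO g h x.ω
  norm_le g x := (al_norm labO g x.ω).le
  proj g x := al_proj labO g x.ω
  equiv _ _ := rfl
  free k hk κ h := FB_free _ k hk κ h
  r_pos := hr
  r_le := hrℓ

lemma levels_GM (ρ N : ℕ) : ∃ (L : ℕ) (Z : Type) (_ : Fintype Z) (_ : Nonempty Z)
      (_ : MulAction (FreeGroup Bool) Z) (ι : Z → GM ρ), 0 < L ∧
      (∀ (g : FreeGroup Bool) z, ι (g • z) = g • ι z) ∧
      (∀ (z : Z) (g : FreeGroup Bool), g.norm ≤ 2 * L → g • z = z → g = 1) ∧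
      ∀ W : FreeGroup Bool → Finset (FreeGroup SS), (∀ γ, (W γ).card ≤ N) →
        ∀ T : Finset Z, (∀ z ∈ T, ∃ γ : FreeGroup Bool, γ.norm = L ∧ al labO γ (ι z).ω ∈ W γ) →
          2 * T.card ≤ Fintype.card Z := by
  classical
  obtain ⟨n, hn⟩ : ∃ n, 2 * (2 * N + 1) ≤ n := ⟨_, le_rfl⟩
  refine ⟨2 * N + 1, Skew Bool (labL n) (FB SS ρ), inferInstance, inferInstance, inferInstance,
    fun z => ⟨⟨n, z.ω⟩, z.κ⟩, by omega, ?_, ?_, ?_⟩
  · intro g z
    apply Skew.ext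
    · rfl
    · change al (labL n) g z.ω • z.κ = al labO g (⟨n, z.ω⟩ : Om) • z.κ
      rw [al_labO]
  · intro z g hg h
    exact FB_free n g (hg.trans hn) z.ω.v (congrArg (fun x => x.ω.v) h)
  · intro W hW T hT
    have h1 : T.card = ∑ q : FB Bool n × FB SS ρ, (T.filter fun z => (z.ω.v, z.κ) = q).card :=
      Finset.card_eq_sum_card_fiberwise
        (f := fun z : Skew Bool (labL n) (FB SS ρ) => (z.ω.v, z.κ)) (fun _ _ => Finset.mem_univ _)
    have h2 : ∀ q : FB Bool n × FB SS ρ, 2 * (T.filter fun z => (z.ω.v, z.κ) = q).card ≤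
        8 ^ Fintype.card (FB Bool n) := by
      rintro ⟨v, κ⟩
      refine le_trans (Nat.mul_le_mul_left _ ?_) (bad_card N n hn v W hW)
      refine Finset.card_le_card_of_injOn (fun z => z.ω.ξ) ?_ ?_
      · intro z hz
        simp only [Finset.coe_filter, Set.mem_ofPred_eq, Prod.mk.injEq, Finset.mem_univ,
          true_and] at hz ⊢
        obtain ⟨γ, h3, h4⟩ := hT z hz.1
        refine ⟨γ, h3, ?_⟩
        rw [← hz.2.1]
        rw [al_labO] at h4
        exact h4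
      · intro z hz z' hz' h
        simp only [Finset.coe_filter, Set.mem_ofPred_eq, Prod.mk.injEq] at hz hz'
        apply Skew.ext
        · exact Lv.ext (hz.2.1.trans hz'.2.1.symm) h
        · exact hz.2.2.trans hz'.2.2.symm
    have h3 : Fintype.card (Skew Bool (labL n) (FB SS ρ)) =
        Fintype.card (FB Bool n × FB SS ρ) * 8 ^ Fintype.card (FB Bool n) := by
      rw [Fintype.card_congr (Skew.equivProd (S := Bool) (labL n) (FB SS ρ)), Fintype.card_prod,
        Fintype.card_congr (Lv.equivProd n), Fintype.card_prod, Fintype.card_prod,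
        Fintype.card_fun, Fintype.card_fin]
      ring
    rw [h1, h3, Finset.mul_sum]
    refine (Finset.sum_le_card_nsmul _ _ _ fun q _ => h2 q).trans ?_
    simp

/-- A bounded uniformly discrete metric on `ℕ`. -/
structure Piece where
  /-- distance -/
  d : ℕ → ℕ → ℝ
  /-- radius -/
  R : ℝ
  d_self : ∀ x, d x x = 0
  d_comm : ∀ x y, d x y = d y x
  d_triangle : ∀ x y z, d x z ≤ d x y + d y z
  one_le : ∀ x y, x ≠ y → 1 ≤ d x y
  le_R : ∀ x y, d x y ≤ R
  one_le_R : 1 ≤ R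

/-- No finitely supported `lam`-Lipschitz family almost fixes a certain finite set. -/
def Piece.Defeats (P : Piece) (lam : ℝ) : Prop :=
  ∃ A : Finset ℕ, ∀ (B : Finset ℕ) (μ : ℕ → ℕ → ℝ),
    (∀ (f : ℕ → ℝ) (Lp : ℝ), 0 < Lp → (∀ x y, |f x - f y| ≤ Lp * P.d x y) →
      (∀ x, |f x| ≤ Lp * P.R) → ∀ x y,
        |∑ b ∈ B, μ x b * f b - ∑ b ∈ B, μ y b * f b| ≤ lam * P.d x y * Lp) →
    (∀ (f : ℕ → ℝ) (Lp : ℝ), 0 < Lp → (∀ x y, |f x - f y| ≤ Lp * P.d x y) →
      (∀ x, |f x| ≤ Lp * P.R) → ∀ a ∈ A, |∑ b ∈ B, μ a b * f b - f a| ≤ lam * Lp) → False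

theorem exists_piece (k : ℕ) : ∃ P : Piece, (k : ℝ) ≤ P.R ∧ P.Defeats k := by
  classical
  obtain ⟨r, hr⟩ : ∃ r, r = 32 * k + 1 := ⟨_, rfl⟩
  obtain ⟨ℓ, hℓ⟩ : ∃ ℓ, ℓ = 32 * (2 * k * (r + 1) + 1) + r := ⟨_, rfl⟩
  have hr0 : 0 < r := by omega
  have hrℓ : r ≤ ℓ := by omega
  have H := hyp_GM r ℓ hr0 hrℓ
  obtain ⟨e⟩ : Nonempty (ℕ ≃ GM (2 * ℓ + r)) := nonempty_equiv_of_countable
  let c : GM (2 * ℓ + r) → FB SS (2 * ℓ + r) := fun x => x.κ
  let j : FB SS (2 * ℓ + r) → GM (2 * ℓ + r) := fun κ => ⟨⟨0, Classical.arbitrary _⟩, κ⟩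
  refine ⟨⟨fun a b => DD SS c r ℓ (e a) (e b), ℓ, fun _ => DD_self _ _ _ _,
    fun _ _ => DD_comm _ _ _ _ _, fun _ _ _ => DD_triangle _ _ _ _ _ _,
    fun _ _ h => one_le_DD c hr0 ℓ (e.injective.ne h), fun _ _ => DD_le c hrℓ _ _,
    by exact_mod_cast hr0.trans_le hrℓ⟩, ?_, Finset.univ.image fun κ => e.symm (j κ), ?_⟩
  · change (k : ℝ) ≤ ℓ
    exact_mod_cast (by omega)
  · intro B μ H1 H2
    simp only at H1 H2
    have hs : ∀ (x : ℕ) (f : GM (2 * ℓ + r) → ℝ),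
        ∑ b ∈ B.map e.toEmbedding, μ x (e.symm b) * f b = ∑ b ∈ B, μ x b * f (e b) := by
      intro x f
      rw [Finset.sum_map]
      simp
    refine no_op H j (fun _ => rfl) k (Nat.cast_nonneg k) ?_ ?_ (levels_GM _)
      (B.map e.toEmbedding) (fun x b => μ (e.symm x) (e.symm b)) ?_ ?_
    · rw [hr]; push_cast; linarith
    · rw [hℓ]; push_cast; linarith [Nat.cast_nonneg (α := ℝ) r]
    · intro f Lp h0 h1 h2 x y
      have := H1 (fun a => f (e a)) Lp h0 (fun a b => h1 _ _) (fun a => h2 _) (e.symm x) (e.symm y)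
      simp only [Equiv.apply_symm_apply] at this
      rw [hs, hs]
      exact this
    · intro f Lp h0 h1 h2 κ
      have := H2 (fun a => f (e a)) Lp h0 (fun a b => h1 _ _) (fun a => h2 _) (e.symm (j κ))
        (Finset.mem_image.2 ⟨κ, Finset.mem_univ _, rfl⟩)
      simp only [Equiv.apply_symm_apply] at this
      rw [hs]
      exact this

end Crest.Agent.R115
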