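import Crest.Prelude.Def_LipschitzFree
import Crest.Agent.R115.Piece

/-!
Functional analysis of free spaces: restriction operators, the approximation property, and the
discretisation of the bounded approximation property.
-/

set_option autoImplicit false
set_option linter.style.haveILetI false

namespace Crest.Agent.R115

open Crest.AnalysisR

variable (P : PointedMetric)

lemma norm_mol (a : P.Mol) : ‖a‖ = P.freeNorm a := rfl

lemma pairing_smul_fun (a : P.Mol) (c : ℝ) (f : P.M → ℝ) :
    P.pairing a (fun x => c * f x) = c * P.pairing a f := by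
  unfold PointedMetric.pairing
  rw [Finsupp.mul_sum]
  exact Finsupp.sum_congr fun _ _ => by ring

lemma pairing_sub (a b : P.Mol) (f : P.M → ℝ) :
    P.pairing (a - b) f = P.pairing a f - P.pairing b f := by
  rw [sub_eq_add_neg, P.pairing_add, P.pairing_neg]; ring

lemma abs_pairing_le_norm (a : P.Mol) (f : P.M → ℝ) (L : ℝ) (hL : 0 < L)
    (hf : ∀ x y, |f x - f y| ≤ L * P.metric.dist x y) (h0 : f P.base = 0) :
    |P.pairing a f| ≤ L * ‖a‖ := by
  letI := P.metric
  have h1 : LipschitzWith 1 (fun x => L⁻¹ * f x) := by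
    refine LipschitzWith.of_dist_le_mul fun x y => ?_
    rw [Real.dist_eq, ← mul_sub, abs_mul, abs_of_pos (inv_pos.2 hL), NNReal.coe_one, one_mul,
      inv_mul_le_iff₀ hL]
    exact hf x y
  have h2 := le_ciSup (P.freeNorm_bddAbove a) ⟨fun x => L⁻¹ * f x, h1, by simp [h0]⟩
  simp only [pairing_smul_fun] at h2
  rw [abs_mul, abs_of_pos (inv_pos.2 hL), inv_mul_le_iff₀ hL] at h2
  exact h2

lemma norm_mol_le (a : P.Mol) (C : ℝ)
    (h : ∀ f : P.M → ℝ, (∀ x y, |f x - f y| ≤ P.metric.dist x y) → f P.base = 0 →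
      |P.pairing a f| ≤ C) : ‖a‖ ≤ C := by
  letI := P.metric
  refine ciSup_le fun f => h f.1 (fun x y => ?_) f.2.2
  have := f.2.1.dist_le_mul x y
  rwa [Real.dist_eq, NNReal.coe_one, one_mul] at this

/-- the point mass -/
noncomputable def delta (x : P.M) : P.Mol := (Finsupp.single x 1 : P.M →₀ ℝ)

lemma pairing_delta (x : P.M) (f : P.M → ℝ) : P.pairing (delta P x) f = f x := by
  unfold PointedMetric.pairing
  change (Finsupp.single x (1 : ℝ)).sum _ = _
  rw [Finsupp.sum_single_index] <;> simp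

lemma norm_delta_sub (x y : P.M) : ‖delta P x - delta P y‖ ≤ P.metric.dist x y :=
  norm_mol_le P _ _ fun f hf _ => by
    rw [pairing_sub, pairing_delta, pairing_delta]; exact hf x y

lemma norm_delta (x : P.M) : ‖delta P x‖ ≤ P.metric.dist x P.base :=
  norm_mol_le P _ _ fun f hf h0 => by
    have := hf x P.base
    rwa [h0, sub_zero, ← pairing_delta P x f] at this

open Classical in
/-- restriction of a molecule to a set -/
noncomputable def filt (E : Set P.M) : P.Mol →ₗ[ℝ] P.Mol where
  toFun a := ((P.coeffs a).filter (· ∈ E) : P.M →₀ ℝ)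
  map_add' _ _ := Finsupp.filter_add
  map_smul' _ _ := Finsupp.filter_smul

lemma coeffs_filt (E : Set P.M) (a : P.Mol) (x : P.M) :
    P.coeffs (filt P E a) x = E.indicator (P.coeffs a) x := by
  classical
  change ((P.coeffs a).filter (· ∈ E)) x = _
  rw [Finsupp.filter_apply, Set.indicator_apply]

lemma mol_ext {a b : P.Mol} (h : ∀ x, P.coeffs a x = P.coeffs b x) : a = b := Finsupp.ext h

lemma pairing_eq_sum (a : P.Mol) (f : P.M → ℝ) (s : Finset P.M)
    (hs : ∀ x, x ∉ s → P.coeffs a x * f x = 0) :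
    P.pairing a f = ∑ x ∈ s, P.coeffs a x * f x := by
  classical
  unfold PointedMetric.pairing Finsupp.sum
  rw [Finset.sum_subset (Finset.subset_union_left (s₂ := s)),
    Finset.sum_subset (Finset.subset_union_right (s₁ := (P.coeffs a).support) (s₂ := s))]
  · intro x _ hx; exact hs x hx
  · intro x _ hx; rw [Finsupp.notMem_support_iff.1 hx]; simp

lemma pairing_filt (E : Set P.M) (a : P.Mol) (f : P.M → ℝ) :
    P.pairing (filt P E a) f = P.pairing a (E.indicator f) := by
  classical
  rw [pairing_eq_sum P _ f (P.coeffs a).support, pairing_eq_sum P a _ (P.coeffs a).support]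
  · refine Finset.sum_congr rfl fun x _ => ?_
    rw [coeffs_filt, Set.indicator_apply, Set.indicator_apply]
    split_ifs <;> simp
  · intro x hx; rw [Finsupp.notMem_support_iff.1 hx, zero_mul]
  · intro x hx
    rw [coeffs_filt, Set.indicator_apply, Finsupp.notMem_support_iff.1 hx]; simp

lemma mol_eq_sum (a : P.Mol) : a = ∑ x ∈ (P.coeffs a).support, P.coeffs a x • delta P x := by
  have h := (Finsupp.sum_single (P.coeffs a)).symm
  refine h.trans ?_
  unfold Finsupp.sum
  refine Finset.sum_congr rfl fun x _ => ?_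
  change _ = P.coeffs a x • (Finsupp.single x 1 : P.M →₀ ℝ)
  simp

lemma coe_sub' (a b : P.Mol) : ((a - b : P.Mol) : P.FreeSpace) = (a : P.FreeSpace) - b :=
  UniformSpace.Completion.coe_sub a b

lemma norm_coe_sub (a b : P.Mol) : ‖(a : P.FreeSpace) - b‖ = ‖a - b‖ := by
  rw [← coe_sub', UniformSpace.Completion.norm_coe]

lemma exists_mult (E : Set P.M) (C : ℝ) (hC : 0 < C)
    (hE : ∀ f : P.M → ℝ, (∀ x y, |f x - f y| ≤ P.metric.dist x y) → f P.base = 0 →
      ∀ x y, |E.indicator f x - E.indicator f y| ≤ C * P.metric.dist x y) :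
    ∃ T : P.FreeSpace →L[ℝ] P.FreeSpace, (∀ x, ‖T x‖ ≤ C * ‖x‖) ∧
      (∀ a : P.Mol, T a = (filt P E a : P.Mol)) ∧
      (E.Finite → FiniteDimensional ℝ (LinearMap.range T.toLinearMap)) := by
  have hb : ∀ a, ‖filt P E a‖ ≤ C * ‖a‖ := fun a =>
    norm_mol_le P _ _ fun f hf h0 => by
      rw [pairing_filt]
      exact abs_pairing_le_norm P a _ C hC (hE f hf h0) (by simp [Set.indicator_apply_eq_zero, h0])
  let T₀ : P.Mol →L[ℝ] P.Mol := (filt P E).mkContinuous C hb
  have hT : ∀ a : P.Mol, T₀.completion a = (filt P E a : P.Mol) := fun a =>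
    T₀.completion_apply_coe a
  refine ⟨T₀.completion, fun x => ?_, hT, fun hfin => ?_⟩
  · induction x using UniformSpace.Completion.induction_on with
    | hp => exact isClosed_le (by fun_prop) (by fun_prop)
    | ih a =>
      rw [hT, UniformSpace.Completion.norm_coe, UniformSpace.Completion.norm_coe]
      exact hb a
  · let U : Submodule ℝ P.FreeSpace :=
      Submodule.span ℝ ((fun x => ((delta P x : P.Mol) : P.FreeSpace)) '' E)
    haveI : FiniteDimensional ℝ U := FiniteDimensional.span_of_finite ℝ (hfin.image _)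
    have hU : IsClosed (U : Set P.FreeSpace) := U.closed_of_finiteDimensional
    have hle : LinearMap.range T₀.completion.toLinearMap ≤ U := by
      rintro _ ⟨x, rfl⟩
      change T₀.completion x ∈ U
      induction x using UniformSpace.Completion.induction_on with
      | hp => exact hU.preimage T₀.completion.continuous
      | ih a =>
        rw [hT, mol_eq_sum P (filt P E a)]
        rw [← UniformSpace.Completion.coe_toComplL (𝕜 := ℝ), map_sum]
        refine U.sum_mem fun x hx => ?_
        rw [map_smul]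
        refine U.smul_mem _ (Submodule.subset_span ⟨x, ?_, rfl⟩)
        rw [Finsupp.mem_support_iff, coeffs_filt] at hx
        exact Set.mem_of_indicator_ne_zero hx
    exact Submodule.finiteDimensional_of_le hle

lemma exists_net (K : Set P.FreeSpace) (hK : IsCompact K) (ε : ℝ) (hε : 0 < ε) :
    ∃ t : Finset P.Mol, ∀ x ∈ K, ∃ a ∈ t, ‖x - (a : P.FreeSpace)‖ ≤ ε := by
  obtain ⟨t, ht⟩ := hK.elim_finite_subcover (fun a : P.Mol => Metric.ball (a : P.FreeSpace) ε)
    (fun _ => Metric.isOpen_ball) (fun x _ => by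
      obtain ⟨a, ha⟩ := (UniformSpace.Completion.denseRange_coe (α := P.Mol)).exists_dist_lt x hε
      exact Set.mem_iUnion.2 ⟨a, ha⟩)
  refine ⟨t, fun x hx => ?_⟩
  obtain ⟨a, ha, hxa⟩ := Set.mem_iUnion₂.1 (ht hx)
  exact ⟨a, ha, by rw [← dist_eq_norm]; exact le_of_lt hxa⟩

theorem hasAP_of_levels (lev : P.M → ℕ)
    (hsep : ∀ x y, x ≠ y → 1 ≤ P.metric.dist x y)
    (hbd : ∀ k, ∃ C, 0 < C ∧ ∀ x, lev x ≤ k → P.metric.dist x P.base ≤ C)
    (hlev : ∀ x y, lev x < lev y → P.metric.dist x P.base ≤ P.metric.dist x y) :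
    HasAP P.FreeSpace := by
  classical
  letI := P.metric
  intro K hK ε hε
  have habs : ∀ f : P.M → ℝ, (∀ x y, |f x - f y| ≤ P.metric.dist x y) → f P.base = 0 →
      ∀ x, |f x| ≤ dist x P.base := fun f hf h0 x => by
    have := hf x P.base
    rwa [h0, sub_zero] at this
  obtain ⟨t, ht⟩ := exists_net P K hK (ε / 4) (by positivity)
  let k₀ : ℕ := (t.biUnion fun a => (P.coeffs a).support).sup lev
  obtain ⟨C, hC, hC'⟩ := hbd k₀
  obtain ⟨Q, hQ1, hQ2, -⟩ := exists_mult P {x | lev x ≤ k₀} 1 one_pos (by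
    intro f hf h0 x y
    rw [one_mul]
    simp only [Set.indicator_apply, Set.mem_ofPred_eq]
    split_ifs with hx hy hy
    · exact hf x y
    · rw [sub_zero]; exact (habs f hf h0 x).trans (hlev x y (by omega))
    · rw [zero_sub, abs_neg, dist_comm]; exact (habs f hf h0 y).trans (hlev y x (by omega))
    · simp)
  obtain ⟨t', ht'⟩ := exists_net P K hK (ε / (2 * (2 * C + 1))) (by positivity)
  let B : Set P.M := {x | lev x ≤ k₀ ∧ x ∈ t'.biUnion fun a => (P.coeffs a).support}
  have hBfin : B.Finite :=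
    (t'.biUnion fun a => (P.coeffs a).support).finite_toSet.subset fun x hx => hx.2
  obtain ⟨T, hT1, hT2, hT3⟩ := exists_mult P B (2 * C) (by positivity) (by
    intro f hf h0 x y
    by_cases hxy : x = y
    · subst hxy; simp
    have h1 : ∀ z, |B.indicator f z| ≤ C := fun z => by
      simp only [Set.indicator_apply]
      split_ifs with hz
      · exact (habs f hf h0 z).trans (hC' z hz.1)
      · simpa using hC.le
    have h2 := abs_sub (B.indicator f x) (B.indicator f y)
    have h3 := hsep x y hxy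
    have := h1 x
    have := h1 y
    nlinarith)
  refine ⟨T, hT3 hBfin, fun x hx => ?_⟩
  obtain ⟨a, ha, hxa⟩ := ht x hx
  obtain ⟨a', ha', hxa'⟩ := ht' x hx
  have e1 : Q a = a := by
    rw [hQ2]
    congr 1
    refine mol_ext P fun y => ?_
    rw [coeffs_filt, Set.indicator_apply]
    split_ifs with hy
    · rfl
    · by_contra hne
      refine hy (Finset.le_sup (f := lev) (Finset.mem_biUnion.2 ⟨a, ha, ?_⟩))
      exact Finsupp.mem_support_iff.2 (Ne.symm hne)
  have e2 : T a' = Q a' := by
    rw [hQ2, hT2]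
    congr 1
    refine mol_ext P fun y => ?_
    rw [coeffs_filt, coeffs_filt, Set.indicator_apply, Set.indicator_apply]
    by_cases hy : y ∈ (P.coeffs a').support
    · have : y ∈ B ↔ y ∈ {x | lev x ≤ k₀} :=
        ⟨fun h => h.1, fun h => ⟨h, Finset.mem_biUnion.2 ⟨a', ha', hy⟩⟩⟩
      simp only [this]
    · rw [Finsupp.notMem_support_iff.1 hy]; simp
  have e3 : T x - x = T (x - a') - Q (x - a') + Q (x - a) - (x - a) := by
    rw [map_sub, map_sub, map_sub, e1, e2]; abel
  have b1 := hT1 (x - a')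
  have b2 := hQ1 (x - a')
  have b3 := hQ1 (x - a)
  have b4 : (2 * C + 1) * ‖x - (a' : P.FreeSpace)‖ ≤ ε / 2 := by
    calc _ ≤ (2 * C + 1) * (ε / (2 * (2 * C + 1))) := by gcongr
      _ = _ := by field_simp
  rw [e3]
  have b5 := norm_sub_le (T (x - a') - Q (x - a') + Q (x - a)) (x - a)
  have b6 := norm_add_le (T (x - a') - Q (x - a')) (Q (x - a))
  have b7 := norm_sub_le (T (x - a')) (Q (x - a'))
  linarith

theorem not_hasBAP_of_pieces (pc : ℕ → Piece) (hdef : ∀ k : ℕ, (pc k).Defeats k)
    (emb : ℕ → ℕ → P.M) (hinj : ∀ k, Function.Injective (emb k))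
    (hd : ∀ k a b, P.metric.dist (emb k a) (emb k b) = (pc k).d a b)
    (hbase : ∀ k a, P.metric.dist (emb k a) P.base ≤ (pc k).R)
    (hbase' : ∀ k, P.base ∉ Set.range (emb k))
    (hfar : ∀ k a y, y ∉ Set.range (emb k) → (pc k).R ≤ P.metric.dist (emb k a) y) :
    ¬ HasBAP P.FreeSpace := by
  classical
  letI := P.metric
  rintro ⟨lam, hlam⟩
  obtain ⟨k, hk⟩ := exists_nat_ge (|lam| + 2)
  obtain ⟨A, hA⟩ := hdef k
  obtain ⟨T, hT1, hT2, hT3⟩ := hlam
    ((fun a => ((delta P (emb k a) : P.Mol) : P.FreeSpace)) '' (A : Set ℕ))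
    (A.finite_toSet.image _).isCompact 1 one_pos
  have hlam0 : 0 ≤ lam := (norm_nonneg _).trans hT2
  rw [abs_of_nonneg hlam0] at hk
  let S : Submodule ℝ P.FreeSpace := LinearMap.range T.toLinearMap
  haveI : FiniteDimensional ℝ S := hT1
  haveI : ProperSpace S := FiniteDimensional.proper ℝ S
  have hcomp : IsCompact (Subtype.val '' Metric.closedBall (0 : S) (lam * (pc k).R)) :=
    (isCompact_closedBall _ _).image continuous_subtype_val
  obtain ⟨t, ht⟩ := exists_net P _ hcomp (1 / 2) (by norm_num)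
  have hmem : ∀ x : ℕ, T ((delta P (emb k x) : P.Mol) : P.FreeSpace) ∈
      Subtype.val '' Metric.closedBall (0 : S) (lam * (pc k).R) := by
    intro x
    refine ⟨⟨T ((delta P (emb k x) : P.Mol) : P.FreeSpace), ⟨_, rfl⟩⟩, ?_, rfl⟩
    rw [mem_closedBall_zero_iff]
    change ‖T _‖ ≤ _
    refine (T.le_of_opNorm_le hT2 _).trans ?_
    rw [UniformSpace.Completion.norm_coe]
    exact mul_le_mul_of_nonneg_left ((norm_delta P _).trans (hbase k x)) hlam0
  choose ν hν1 hν2 using fun x => ht _ (hmem x)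
  let B : Finset ℕ := (t.biUnion fun a => (P.coeffs a).support).preimage (emb k) (hinj k).injOn
  have hF : ∀ (f : ℕ → ℝ) (Lp : ℝ), 0 < Lp → (∀ x y, |f x - f y| ≤ Lp * (pc k).d x y) →
      (∀ x, |f x| ≤ Lp * (pc k).R) →
      ∀ a : P.Mol, |P.pairing a (Function.extend (emb k) f 0)| ≤ Lp * ‖a‖ := by
    intro f Lp h0 h1 h2 a
    refine abs_pairing_le_norm P a _ Lp h0 (fun x y => ?_) ?_
    · by_cases hx : x ∈ Set.range (emb k)
      · obtain ⟨x, rfl⟩ := hx
        by_cases hy : y ∈ Set.range (emb k)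
        · obtain ⟨y, rfl⟩ := hy
          rw [(hinj k).extend_apply, (hinj k).extend_apply, hd]
          exact h1 x y
        · rw [(hinj k).extend_apply, Function.extend_apply' _ _ _ hy, Pi.zero_apply, sub_zero]
          exact (h2 x).trans (mul_le_mul_of_nonneg_left (hfar k x y hy) h0.le)
      · by_cases hy : y ∈ Set.range (emb k)
        · obtain ⟨y, rfl⟩ := hy
          rw [(hinj k).extend_apply, Function.extend_apply' _ _ _ hx, Pi.zero_apply, zero_sub,
            abs_neg, dist_comm]
          exact (h2 y).trans (mul_le_mul_of_nonneg_left (hfar k y x hx) h0.le)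
        · rw [Function.extend_apply' _ _ _ hx, Function.extend_apply' _ _ _ hy]
          simp only [Pi.zero_apply, sub_self, abs_zero]
          exact mul_nonneg h0.le dist_nonneg
    · rw [Function.extend_apply' _ _ _ (hbase' k), Pi.zero_apply]
  have hsum : ∀ (x : ℕ) (f : ℕ → ℝ), ∑ b ∈ B, P.coeffs (ν x) (emb k b) * f b =
      P.pairing (ν x) (Function.extend (emb k) f 0) := by
    intro x f
    rw [pairing_eq_sum P _ _ (B.map ⟨emb k, hinj k⟩), Finset.sum_map]
    · refine Finset.sum_congr rfl fun b _ => ?_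
      simp [(hinj k).extend_apply]
    · intro y hy
      by_cases hy' : y ∈ Set.range (emb k)
      · obtain ⟨b, rfl⟩ := hy'
        have : emb k b ∉ (P.coeffs (ν x)).support := fun h =>
          hy (Finset.mem_map.2 ⟨b, Finset.mem_preimage.2
            (Finset.mem_biUnion.2 ⟨ν x, hν1 x, h⟩), rfl⟩)
        rw [Finsupp.notMem_support_iff.1 this, zero_mul]
      · rw [Function.extend_apply' _ _ _ hy']; simp
  refine hA B (fun x b => P.coeffs (ν x) (emb k b)) ?_ ?_
  · intro f Lp h0 h1 h2 x y
    by_cases hxy : x = y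
    · subst hxy; simp [(pc k).d_self]
    rw [hsum, hsum, ← pairing_sub]
    refine (hF f Lp h0 h1 h2 _).trans ?_
    rw [mul_comm]
    refine mul_le_mul_of_nonneg_right ?_ h0.le
    rw [← norm_coe_sub]
    have a1 := hν2 x
    have a2 := hν2 y
    have a3 : ‖T ((delta P (emb k x) : P.Mol) : P.FreeSpace) -
        T ((delta P (emb k y) : P.Mol) : P.FreeSpace)‖ ≤ lam * (pc k).d x y := by
      rw [← map_sub]
      refine (T.le_of_opNorm_le hT2 _).trans ?_
      rw [norm_coe_sub]
      exact mul_le_mul_of_nonneg_left ((norm_delta_sub P _ _).trans (hd k x y).le) hlam0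
    have a4 := (pc k).one_le x y hxy
    have a5 := norm_sub_le_norm_sub_add_norm_sub ((ν x : P.Mol) : P.FreeSpace)
      (T ((delta P (emb k x) : P.Mol) : P.FreeSpace)) ((ν y : P.Mol) : P.FreeSpace)
    have a6 := norm_sub_le_norm_sub_add_norm_sub (T ((delta P (emb k x) : P.Mol) : P.FreeSpace))
      (T ((delta P (emb k y) : P.Mol) : P.FreeSpace)) ((ν y : P.Mol) : P.FreeSpace)
    rw [norm_sub_rev] at a1
    nlinarith
  · intro f Lp h0 h1 h2 a ha
    have e : f a = P.pairing (delta P (emb k a)) (Function.extend (emb k) f 0) := by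
      rw [pairing_delta, (hinj k).extend_apply]
    rw [hsum, e, ← pairing_sub]
    refine (hF f Lp h0 h1 h2 _).trans ?_
    rw [mul_comm]
    refine mul_le_mul_of_nonneg_right ?_ h0.le
    rw [← norm_coe_sub]
    have a1 := hν2 a
    have a2 := hT3 _ ⟨a, ha, rfl⟩
    have a5 := norm_sub_le_norm_sub_add_norm_sub ((ν a : P.Mol) : P.FreeSpace)
      (T ((delta P (emb k a) : P.Mol) : P.FreeSpace)) ((delta P (emb k a) : P.Mol) : P.FreeSpace)
    rw [norm_sub_rev] at a1
    linarith

end Crest.Agent.R115
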