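import Mathlib

/-!
Free groups: finite balls, finite actions that are free on a ball, and an `ℓ¹` expansion
inequality for functions supported in a tree-like ball.
-/

set_option autoImplicit false
set_option linter.unusedSectionVars false

namespace Crest.Agent.R115

open FreeGroup hiding map_mul map_one map_inv norm_mul_le

section
variable {S : Type} [DecidableEq S]

lemma norm_eq_length (g : FreeGroup S) : g.norm = g.toWord.length := rfl

lemma norm_mk_of_reduced {l : List (S × Bool)} (h : IsReduced l) :
    (FreeGroup.mk l).norm = l.length := by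
  rw [norm_eq_length, toWord_mk, h.reduce_eq]

lemma ball_finite [Fintype S] (n : ℕ) : {g : FreeGroup S | g.norm ≤ n}.Finite := by
  have h : {l : List (S × Bool) | l.length ≤ n}.Finite := List.finite_length_le (S × Bool) n
  exact (h.preimage (f := fun g : FreeGroup S => g.toWord) toWord_injective.injOn)

/-- The ball of radius `n` as a finite set. -/
noncomputable def ballF (S : Type) [DecidableEq S] [Fintype S] (n : ℕ) : Finset (FreeGroup S) :=
  (ball_finite (S := S) n).toFinset

lemma mem_ballF [Fintype S] {n : ℕ} {g : FreeGroup S} : g ∈ ballF S n ↔ g.norm ≤ n := by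
  simp [ballF]

/-- The sphere of radius `n` as a finite set. -/
noncomputable def sphF (S : Type) [DecidableEq S] [Fintype S] (n : ℕ) : Finset (FreeGroup S) :=
  (ballF S n).filter fun g => g.norm = n

lemma mem_sphF [Fintype S] {n : ℕ} {g : FreeGroup S} : g ∈ sphF S n ↔ g.norm = n := by
  simp only [sphF, Finset.mem_filter, mem_ballF]
  constructor
  · exact fun h => h.2
  · exact fun h => ⟨h.le, h⟩

lemma card_sphF [Fintype S] (n : ℕ) : (sphF S n).card ≤ (2 * Fintype.card S) ^ n := by
  have h1 : Fintype.card (List.Vector (S × Bool) n) = (2 * Fintype.card S) ^ n := by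
    rw [card_vector]; simp [mul_comm]
  rw [← h1, ← Fintype.card_coe]
  refine Fintype.card_le_of_injective
    (fun g : sphF S n => (⟨g.1.toWord, mem_sphF.1 g.2⟩ : List.Vector (S × Bool) n)) ?_
  intro g h hgh
  exact Subtype.ext (toWord_injective (congrArg Subtype.val hgh))

lemma mk_cons (x : S × Bool) (l : List (S × Bool)) :
    FreeGroup.mk (x :: l) = FreeGroup.mk [x] * FreeGroup.mk l := by
  rw [mul_mk]; rfl

lemma mk_true (s : S) : FreeGroup.mk [(s, true)] = of s := rfl

lemma mk_false (s : S) : FreeGroup.mk [(s, false)] = (of s)⁻¹ := by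
  rw [← mk_true, inv_mk]; rfl

lemma exists_perm_ball [Fintype S] (ρ : ℕ) (s : S) :
    ∃ σ : Equiv.Perm (ballF S ρ), ∀ (g h : ballF S ρ), (h : FreeGroup S) = of s * g → σ g = h := by
  let D := {g : ballF S ρ // of s * (g : FreeGroup S) ∈ ballF S ρ}
  let f : D → ballF S ρ := fun d => d.1
  let f' : D → ballF S ρ := fun d => ⟨of s * (d.1 : FreeGroup S), d.2⟩
  have hf : Function.Injective f := Subtype.val_injective
  have hf' : Function.Injective f' := by
    intro a b hab
    have : of s * (a.1 : FreeGroup S) = of s * (b.1 : FreeGroup S) := congrArg Subtype.val hab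
    exact Subtype.ext (Subtype.ext (mul_left_cancel this))
  obtain ⟨σ, hσ⟩ := Equiv.Perm.exists_extending_pair f f' hf hf'
  refine ⟨σ, fun g h hgh => ?_⟩
  have := hσ ⟨g, hgh ▸ h.2⟩
  simp only [f, f'] at this
  rw [this]
  exact Subtype.ext hgh.symm

/-- A finite group receiving the free group injectively on the ball of radius `ρ`. -/
lemma exists_hom_ball [Fintype S] (ρ : ℕ) :
    ∃ φ : FreeGroup S →* Equiv.Perm (ballF S ρ), ∀ g, g.norm ≤ ρ → φ g = 1 → g = 1 := by
  choose σ hσ using exists_perm_ball (S := S) ρ
  refine ⟨lift σ, ?_⟩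
  have h1 : (1 : FreeGroup S) ∈ ballF S ρ := by simp [mem_ballF]
  have key : ∀ l : List (S × Bool), l.length ≤ ρ →
      ((lift σ (FreeGroup.mk l) ⟨1, h1⟩ : ballF S ρ) : FreeGroup S) = FreeGroup.mk l := by
    intro l
    induction l with
    | nil => intro _; simp [← one_eq_mk]
    | cons x l ih =>
      intro hl
      have hl' : l.length ≤ ρ := by simp at hl; omega
      have ih' := ih hl'
      have hmem : FreeGroup.mk (x :: l) ∈ ballF S ρ := mem_ballF.2 (norm_mk_le.trans hl)
      rw [mk_cons, map_mul, Equiv.Perm.mul_apply]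
      obtain ⟨s, b⟩ := x
      cases b
      · rw [mk_false, map_inv, lift_apply_of]
        have e : FreeGroup.mk ((s, false) :: l) = (of s)⁻¹ * FreeGroup.mk l := by
          rw [mk_cons, mk_false]
        have := hσ s ⟨_, hmem⟩ (lift σ (FreeGroup.mk l) ⟨1, h1⟩) (by
          rw [ih']; simp [e])
        rw [← this]
        simp [e]
      · rw [mk_true, lift_apply_of]
        have e : FreeGroup.mk ((s, true) :: l) = of s * FreeGroup.mk l := by
          rw [mk_cons, mk_true]
        have := hσ s (lift σ (FreeGroup.mk l) ⟨1, h1⟩) ⟨_, hmem⟩ (by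
          rw [ih']; simp [e])
        rw [this]
        simp [e]
  intro g hg hφ
  have := key g.toWord hg
  rw [mk_toWord, hφ] at this
  simpa using this.symm

/-- A finite set with an action of the free group which is free on the ball of radius `ρ`. -/
@[ext] structure FB (S : Type) [DecidableEq S] [Fintype S] (ρ : ℕ) : Type where
  /-- the underlying permutation -/
  val : Equiv.Perm (ballF S ρ)

noncomputable instance [Fintype S] (ρ : ℕ) : Fintype (FB S ρ) :=
  Fintype.ofInjective FB.val fun _ _ h => FB.ext h

instance [Fintype S] (ρ : ℕ) : Nonempty (FB S ρ) := ⟨⟨1⟩⟩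

/-- the chosen homomorphism -/
noncomputable def fbHom (S : Type) [DecidableEq S] [Fintype S] (ρ : ℕ) :
    FreeGroup S →* Equiv.Perm (ballF S ρ) := (exists_hom_ball (S := S) ρ).choose

noncomputable instance [Fintype S] (ρ : ℕ) : MulAction (FreeGroup S) (FB S ρ) where
  smul g x := ⟨fbHom S ρ g * x.val⟩
  one_smul x := by
    apply FB.ext
    change fbHom S ρ 1 * x.val = x.val
    rw [map_one, one_mul]
  mul_smul g h x := by
    apply FB.ext
    change fbHom S ρ (g * h) * x.val = fbHom S ρ g * (fbHom S ρ h * x.val)
    rw [map_mul, mul_assoc]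

lemma FB_free [Fintype S] (ρ : ℕ) (g : FreeGroup S) (hg : g.norm ≤ ρ) (x : FB S ρ)
    (h : g • x = x) : g = 1 := by
  refine (exists_hom_ball (S := S) ρ).choose_spec g hg ?_
  have h' : fbHom S ρ g * x.val = x.val := congrArg FB.val h
  exact mul_eq_right.1 h'

end

/-- `ℓ¹` expansion for functions supported in a free ball of a finite set acted on by the free
group on two generators. -/
lemma expansion {Z : Type} [Fintype Z] [MulAction (FreeGroup Bool) Z] (x₀ : Z) (L : ℕ)
    (hfree : ∀ g : FreeGroup Bool, g.norm ≤ 2 * L → g • x₀ = x₀ → g = 1)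
    (u : Z → ℝ) (hu : ∀ x, u x ≠ 0 → ∃ γ : FreeGroup Bool, γ.norm < L ∧ x = γ • x₀) :
    ∑ x, |u x| ≤ ∑ s : Bool, ∑ x, |u (of s • x) - u x| := by
  classical
  let E : Bool × Bool → Z → Prop := fun w x =>
    ∃ γ : FreeGroup Bool, γ.norm ≤ L ∧ γ ∈ startsWith w ∧ x = γ • x₀
  have hdisj : ∀ w w' x, E w x → E w' x → w = w' := by
    rintro w w' x ⟨γ, h1, h2, h3⟩ ⟨γ', h1', h2', h3'⟩
    have : γ⁻¹ * γ' = 1 := by
      refine hfree _ ((FreeGroup.norm_mul_le _ _).trans ?_) ?_
      · rw [norm_inv_eq]; omega
      · rw [mul_smul, ← h3', h3, inv_smul_smul]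
    have hγ : γ = γ' := by rw [inv_mul_eq_one] at this; exact this
    subst hγ
    by_contra hne
    exact (Set.disjoint_left.1 (startsWith.disjoint_iff_ne.2 hne)) h2 h2'
  let χ : Bool × Bool → Z → ℝ := fun w x => if E w x then |u x| else 0
  have hstep : ∀ s x, |u x| ≤ χ (s, false) x + χ (s, true) (of s • x) + |u (of s • x) - u x| := by
    intro s x
    have h0 : ∀ w y, 0 ≤ χ w y := fun w y => by
      simp only [χ]; split_ifs <;> simp
    by_cases hx : u x = 0
    · rw [hx, abs_zero]
      have := h0 (s, false) x
      have := h0 (s, true) (of s • x)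
      positivity
    by_cases hE : E (s, false) x
    · have : χ (s, false) x = |u x| := by simp only [χ, if_pos hE]
      have := h0 (s, true) (of s • x)
      have := abs_nonneg (u (of s • x) - u x)
      linarith
    · obtain ⟨γ, hγ, rfl⟩ := hu x hx
      have hns : γ ∉ startsWith (s, false) := fun h => hE ⟨γ, hγ.le, h, rfl⟩
      have hE' : E (s, true) (of s • γ • x₀) := by
        refine ⟨of s * γ, (FreeGroup.norm_mul_le _ _).trans (by rw [norm_of]; omega), ?_, by rw [mul_smul]⟩
        exact startsWith_mk_mul (w := (s, true)) γ hns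
      have h1 : χ (s, true) (of s • γ • x₀) = |u (of s • γ • x₀)| := by simp only [χ, if_pos hE']
      have h2 := h0 (s, false) (γ • x₀)
      have h3 := abs_sub_abs_le_abs_sub (u (γ • x₀)) (u (of s • γ • x₀))
      rw [abs_sub_comm] at h3
      linarith
  have hsum : ∀ s : Bool, ∑ x, |u x| ≤ ∑ x, χ (s, false) x + ∑ x, χ (s, true) x +
      ∑ x, |u (of s • x) - u x| := by
    intro s
    have h1 : ∑ x, χ (s, true) (of s • x) = ∑ x, χ (s, true) x :=
      Equiv.sum_comp (MulAction.toPerm (of s : FreeGroup Bool)) (χ (s, true))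
    rw [← h1, ← Finset.sum_add_distrib, ← Finset.sum_add_distrib]
    exact Finset.sum_le_sum fun x _ => hstep s x
  have hle : ∀ x, χ (true, false) x + χ (true, true) x + χ (false, false) x + χ (false, true) x
      ≤ |u x| := by
    intro x
    have a1 := hdisj (true, false) (true, true) x
    have a2 := hdisj (true, false) (false, false) x
    have a3 := hdisj (true, false) (false, true) x
    have a4 := hdisj (true, true) (false, false) x
    have a5 := hdisj (true, true) (false, true) x
    have a6 := hdisj (false, false) (false, true) x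
    have := abs_nonneg (u x)
    simp only [χ]
    split_ifs <;> simp_all
  have htot : ∑ x, χ (true, false) x + ∑ x, χ (true, true) x + ∑ x, χ (false, false) x +
      ∑ x, χ (false, true) x ≤ ∑ x, |u x| := by
    rw [← Finset.sum_add_distrib, ← Finset.sum_add_distrib, ← Finset.sum_add_distrib]
    exact Finset.sum_le_sum fun x _ => hle x
  rw [Fintype.sum_bool]
  have := hsum true
  have := hsum false
  linarith

end Crest.Agent.R115
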