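import Crest.Agent.R115.FreeBall

/-!
The abstract gadget: no finitely supported, almost Lipschitz family of measures can fix the
anchors approximately.
-/

set_option autoImplicit false
set_option linter.unusedSectionVars false

namespace Crest.Agent.R115

open FreeGroup hiding map_mul map_one map_inv norm_mul_le

section td
variable (S : Type) {X : Type} [DecidableEq S] [MulAction (FreeGroup S) X]

/-- orbit distance truncated at `t` -/
noncomputable def td (t : ℕ) (x y : X) : ℕ :=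
  sInf {j | j = t ∨ ∃ g : FreeGroup S, g.norm ≤ j ∧ g • x = y}

variable {S}

lemma td_le (t : ℕ) (x y : X) : td S t x y ≤ t := Nat.sInf_le (Or.inl rfl)

lemma td_le_norm (t : ℕ) {x y : X} (g : FreeGroup S) (h : g • x = y) : td S t x y ≤ g.norm :=
  Nat.sInf_le (Or.inr ⟨g, le_rfl, h⟩)

lemma td_spec {t : ℕ} {x y : X} (h : td S t x y < t) :
    ∃ g : FreeGroup S, g.norm ≤ td S t x y ∧ g • x = y := by
  have := Nat.sInf_mem (s := {j | j = t ∨ ∃ g : FreeGroup S, g.norm ≤ j ∧ g • x = y})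
    ⟨t, Or.inl rfl⟩
  rcases this with h1 | h1
  · exact absurd h1 h.ne
  · exact h1

lemma td_self (t : ℕ) (x : X) : td S t x x = 0 := by
  have := td_le_norm (S := S) t (x := x) (y := x) 1 (one_smul _ _)
  simpa using this

lemma td_comm_le (t : ℕ) (x y : X) : td S t y x ≤ td S t x y := by
  rcases (td_le (S := S) t x y).lt_or_eq with h | h
  · obtain ⟨g, hg, rfl⟩ := td_spec h
    exact (td_le_norm t g⁻¹ (inv_smul_smul _ _)).trans (by rwa [norm_inv_eq])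
  · rw [h]; exact td_le t y x

lemma td_comm (t : ℕ) (x y : X) : td S t x y = td S t y x :=
  le_antisymm (td_comm_le t y x) (td_comm_le t x y)

lemma td_triangle (t : ℕ) (x y z : X) : td S t x z ≤ td S t x y + td S t y z := by
  rcases (td_le (S := S) t x y).lt_or_eq with h | h
  · rcases (td_le (S := S) t y z).lt_or_eq with h' | h'
    · obtain ⟨g, hg, hg'⟩ := td_spec h
      obtain ⟨g', hg1, hg1'⟩ := td_spec h'
      have := td_le_norm t (x := x) (y := z) (g' * g) (by rw [mul_smul, hg', hg1'])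
      have := FreeGroup.norm_mul_le g' g
      omega
    · have := td_le (S := S) t x z
      omega
  · have := td_le (S := S) t x z
    omega

lemma eq_of_td_eq_zero {t : ℕ} (ht : 0 < t) {x y : X} (h : td S t x y = 0) : x = y := by
  obtain ⟨g, hg, hg'⟩ := td_spec (S := S) (x := x) (y := y) (t := t) (by omega)
  have : g = 1 := norm_eq_zero.1 (by omega)
  rw [← hg', this, one_smul]

end td

lemma abs_mul_sub_mul_le {w w' h h' : ℝ} (hw : 0 ≤ w) (hw' : 0 ≤ w') (hh : |h| ≤ 1)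
    (hh' : |h'| ≤ 1) (e : w ≠ 0 → w' ≠ 0 → h = h') : |w * h - w' * h'| ≤ |w - w'| := by
  by_cases h1 : w = 0
  · subst h1
    rw [zero_mul, zero_sub, zero_sub, abs_neg, abs_neg, abs_mul]
    exact mul_le_of_le_one_right (abs_nonneg _) hh'
  by_cases h2 : w' = 0
  · subst h2
    rw [zero_mul, sub_zero, sub_zero, abs_mul]
    exact mul_le_of_le_one_right (abs_nonneg _) hh
  rw [← e h1 h2, ← sub_mul, abs_mul]
  exact mul_le_of_le_one_right (abs_nonneg _) hh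

section gadget
variable {M K S' : Type} [DecidableEq S'] [Fintype S'] [MulAction (FreeGroup Bool) M]
  [MulAction (FreeGroup S') K]

/-- the metric of the gadget -/
noncomputable def DD (S' : Type) [DecidableEq S'] [MulAction (FreeGroup S') K]
    (c : M → K) (r ℓ : ℕ) (x y : M) : ℝ :=
  ((max (td Bool r x y) (td S' ℓ (c x) (c y)) : ℕ) : ℝ)

lemma DD_self (c : M → K) (r ℓ : ℕ) (x : M) : DD S' c r ℓ x x = 0 := by
  simp [DD, td_self]

lemma DD_comm (c : M → K) (r ℓ : ℕ) (x y : M) : DD S' c r ℓ x y = DD S' c r ℓ y x := by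
  rw [DD, DD, td_comm r x y, td_comm ℓ (c x) (c y)]

lemma DD_triangle (c : M → K) (r ℓ : ℕ) (x y z : M) :
    DD S' c r ℓ x z ≤ DD S' c r ℓ x y + DD S' c r ℓ y z := by
  have h1 := td_triangle (S := Bool) r x y z
  have h2 := td_triangle (S := S') ℓ (c x) (c y) (c z)
  unfold DD
  rw [← Nat.cast_add]
  exact_mod_cast (by omega)

lemma one_le_DD (c : M → K) {r : ℕ} (hr : 0 < r) (ℓ : ℕ) {x y : M} (h : x ≠ y) :
    1 ≤ DD S' c r ℓ x y := by
  have : td Bool r x y ≠ 0 := fun h0 => h (eq_of_td_eq_zero hr h0)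
  unfold DD
  exact_mod_cast (by omega)

lemma DD_le (c : M → K) {r ℓ : ℕ} (h : r ≤ ℓ) (x y : M) : DD S' c r ℓ x y ≤ ℓ := by
  have h1 := td_le (S := Bool) r x y
  have h2 := td_le (S := S') ℓ (c x) (c y)
  unfold DD
  exact_mod_cast (by omega)

lemma DD_nonneg (c : M → K) (r ℓ : ℕ) (x y : M) : 0 ≤ DD S' c r ℓ x y := Nat.cast_nonneg _

lemma td_le_DD (c : M → K) (r ℓ : ℕ) (x y : M) : (td Bool r x y : ℝ) ≤ DD S' c r ℓ x y := by
  unfold DD
  exact_mod_cast (le_max_left _ _)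

lemma td_le_DD' (c : M → K) (r ℓ : ℕ) (x y : M) :
    (td S' ℓ (c x) (c y) : ℝ) ≤ DD S' c r ℓ x y := by
  unfold DD
  exact_mod_cast (le_max_right _ _)

/-- the cut-off weight -/
noncomputable def Wt (S' : Type) [DecidableEq S'] [MulAction (FreeGroup S') K]
    (ℓ : ℕ) (κ κ' : K) : ℝ := 1 - (td S' ℓ κ κ' : ℝ) / ℓ

lemma Wt_nonneg (ℓ : ℕ) (κ κ' : K) : 0 ≤ Wt S' ℓ κ κ' := by
  unfold Wt
  have : (td S' ℓ κ κ' : ℝ) ≤ ℓ := by exact_mod_cast td_le ℓ κ κ'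
  have := div_le_one_of_le₀ this (Nat.cast_nonneg ℓ)
  linarith

lemma Wt_le_one (ℓ : ℕ) (κ κ' : K) : Wt S' ℓ κ κ' ≤ 1 := by
  unfold Wt
  have : 0 ≤ (td S' ℓ κ κ' : ℝ) / ℓ := by positivity
  linarith

lemma Wt_self (ℓ : ℕ) (κ : K) : Wt S' ℓ κ κ = 1 := by simp [Wt, td_self]

lemma near_of_Wt_ne {ℓ : ℕ} (hℓ : 0 < ℓ) {κ κ' : K} (h : Wt S' ℓ κ κ' ≠ 0) :
    td S' ℓ κ κ' < ℓ := by
  rcases (td_le (S := S') ℓ κ κ').lt_or_eq with h1 | h1
  · exact h1
  · exfalso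
    apply h
    have : (ℓ : ℝ) ≠ 0 := by positivity
    rw [Wt, h1, div_self this, sub_self]

lemma Wt_lip_right (ℓ : ℕ) (κ a b : K) :
    |Wt S' ℓ κ a - Wt S' ℓ κ b| ≤ (td S' ℓ a b : ℝ) / ℓ := by
  have h1 : (td S' ℓ κ b : ℝ) ≤ td S' ℓ κ a + td S' ℓ a b := by
    exact_mod_cast td_triangle ℓ κ a b
  have h2 : (td S' ℓ κ a : ℝ) ≤ td S' ℓ κ b + td S' ℓ a b := by
    rw [td_comm ℓ a b]; exact_mod_cast td_triangle ℓ κ b a
  have : Wt S' ℓ κ a - Wt S' ℓ κ b = ((td S' ℓ κ b : ℝ) - td S' ℓ κ a) / ℓ := by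
    unfold Wt; ring
  rw [this, abs_div, Nat.abs_cast]
  refine div_le_div_of_nonneg_right ?_ (Nat.cast_nonneg _)
  rw [abs_le]; constructor <;> linarith

lemma Wt_comm (ℓ : ℕ) (a b : K) : Wt S' ℓ a b = Wt S' ℓ b a := by
  rw [Wt, Wt, td_comm]

/-- structural hypotheses on the cocycle -/
structure Hyp (c : M → K) (α : FreeGroup Bool → M → FreeGroup S')
    (p : FreeGroup S' →* FreeGroup Bool) (r ℓ : ℕ) : Prop where
  mul : ∀ g h x, α (g * h) x = α g (h • x) * α h x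
  norm_le : ∀ g x, (α g x).norm ≤ g.norm
  proj : ∀ g x, p (α g x) = g
  equiv : ∀ (g : FreeGroup Bool) x, c (g • x) = α g x • c x
  free : ∀ k : FreeGroup S', k.norm ≤ 2 * ℓ + r → ∀ κ : K, k • κ = κ → k = 1
  r_pos : 0 < r
  r_le : r ≤ ℓ

variable {Z : Type} [MulAction (FreeGroup Bool) Z]

/-- one move of a pair of points with close colours -/
def Step (S' : Type) [DecidableEq S'] [MulAction (FreeGroup S') K]
    (c : M → K) (r ℓ : ℕ) (ι : Z → M) (u v : Z × M) : Prop :=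
  td S' ℓ (c (ι u.1)) (c u.2) < ℓ ∧ td S' ℓ (c (ι v.1)) (c v.2) < ℓ ∧
    ((∃ g : FreeGroup Bool, g.norm ≤ 1 ∧ v.1 = g • u.1 ∧ v.2 = u.2) ∨
      (v.1 = u.1 ∧ td Bool r u.2 v.2 < r))

lemma Step.symm {c : M → K} {r ℓ : ℕ} {ι : Z → M} {u v : Z × M} (h : Step S' c r ℓ ι u v) :
    Step S' c r ℓ ι v u := by
  obtain ⟨h1, h2, h3⟩ := h
  refine ⟨h2, h1, ?_⟩
  rcases h3 with ⟨g, hg, h4, h5⟩ | ⟨h4, h5⟩
  · exact Or.inl ⟨g⁻¹, by rwa [norm_inv_eq], by rw [h4, inv_smul_smul], h5.symm⟩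
  · exact Or.inr ⟨h4.symm, by rwa [td_comm]⟩

/-- the class of a pair -/
def cl (S' : Type) [DecidableEq S'] [MulAction (FreeGroup S') K]
    (c : M → K) (r ℓ : ℕ) (ι : Z → M) (u : Z × M) : Set (Z × M) :=
  {v | Relation.ReflTransGen (Step S' c r ℓ ι) u v}

lemma cl_eq_of_step {c : M → K} {r ℓ : ℕ} {ι : Z → M} {u v : Z × M} (h : Step S' c r ℓ ι u v) :
    cl S' c r ℓ ι u = cl S' c r ℓ ι v := by
  ext w
  exact ⟨fun hw => Relation.ReflTransGen.head h.symm hw, fun hw => Relation.ReflTransGen.head h hw⟩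

lemma chain_of_cl_eq {c : M → K} {r ℓ : ℕ} {ι : Z → M} {u v : Z × M}
    (h : cl S' c r ℓ ι u = cl S' c r ℓ ι v) : Relation.ReflTransGen (Step S' c r ℓ ι) u v := by
  have : v ∈ cl S' c r ℓ ι v := Relation.ReflTransGen.refl
  rw [← h] at this
  exact this

lemma chain {c : M → K} {α : FreeGroup Bool → M → FreeGroup S'}
    {p : FreeGroup S' →* FreeGroup Bool} {r ℓ : ℕ} (H : Hyp c α p r ℓ) {ι : Z → M}
    (hι : ∀ (g : FreeGroup Bool) z, ι (g • z) = g • ι z) {L : ℕ} (hL : 0 < L)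
    (z₀ : Z) (b₀ : M) (k₀ : FreeGroup S') (hk₀ : k₀.norm < ℓ) (hk₀' : k₀ • c (ι z₀) = c b₀)
    (hgood : ∀ (γ : FreeGroup Bool) (k' : FreeGroup S'), γ.norm = L → k'.norm < ℓ →
      α γ (ι z₀) ≠ k'⁻¹ * α (p k' * γ * (p k₀)⁻¹) b₀ * k₀)
    (v : Z × M) (h : Relation.ReflTransGen (Step S' c r ℓ ι) (z₀, b₀) v) :
    ∃ γ γ' : FreeGroup Bool, γ.norm < L ∧ v.1 = γ • z₀ ∧ v.2 = γ' • b₀ ∧
      (α γ' b₀ * k₀ * (α γ (ι z₀))⁻¹).norm < ℓ := by
  have hone : ∀ x, α 1 x = 1 := fun x => by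
    have := H.mul 1 1 x
    rw [one_mul, one_smul] at this
    exact mul_eq_left.1 this.symm
  have uniq : ∀ (v : Z × M) (γ γ' : FreeGroup Bool), v.1 = γ • z₀ → v.2 = γ' • b₀ →
      td S' ℓ (c (ι v.1)) (c v.2) < ℓ → (α γ' b₀ * k₀ * (α γ (ι z₀))⁻¹).norm ≤ ℓ + r →
      (α γ' b₀ * k₀ * (α γ (ι z₀))⁻¹).norm < ℓ := by
    intro v γ γ' h1 h2 h3 h4
    obtain ⟨k, hk, hk'⟩ := td_spec h3
    have e1 : (α γ' b₀ * k₀ * (α γ (ι z₀))⁻¹) • c (ι v.1) = c v.2 := by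
      rw [h1, h2, hι, H.equiv, H.equiv, mul_smul, inv_smul_smul, mul_smul, hk₀']
    have e2 : k⁻¹ * (α γ' b₀ * k₀ * (α γ (ι z₀))⁻¹) = 1 := by
      refine H.free _ ((FreeGroup.norm_mul_le _ _).trans ?_) (c (ι v.1)) ?_
      · rw [norm_inv_eq]; omega
      · rw [mul_smul, e1, ← hk', inv_smul_smul]
    rw [inv_mul_eq_one] at e2
    rw [← e2]; omega
  induction h with
  | refl => exact ⟨1, 1, by simpa using hL, by simp, by simp, by simpa [hone] using hk₀⟩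
  | @tail u v _ hstep ih =>
    obtain ⟨γ, γ', h1, h2, h3, h4⟩ := ih
    obtain ⟨-, hv, h5 | h5⟩ := hstep
    · obtain ⟨g, hg, h6, h7⟩ := h5
      have e1 : v.1 = (g * γ) • z₀ := by rw [h6, h2, mul_smul]
      have e2 : v.2 = γ' • b₀ := by rw [h7, h3]
      have e3 : (α γ' b₀ * k₀ * (α (g * γ) (ι z₀))⁻¹).norm < ℓ := by
        refine uniq v _ _ e1 e2 hv ?_
        rw [H.mul, mul_inv_rev, ← mul_assoc]
        refine (FreeGroup.norm_mul_le _ _).trans ?_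
        rw [norm_inv_eq]
        have := H.norm_le g (γ • ι z₀)
        omega
      refine ⟨g * γ, γ', ?_, e1, e2, e3⟩
      have e4 : (g * γ).norm ≤ L := by
        have := FreeGroup.norm_mul_le g γ
        omega
      rcases e4.lt_or_eq with e5 | e5
      · exact e5
      · exfalso
        refine hgood (g * γ) _ e5 e3 ?_
        have : p (α γ' b₀ * k₀ * (α (g * γ) (ι z₀))⁻¹) * (g * γ) * (p k₀)⁻¹ = γ' := by
          rw [map_mul, map_mul, map_inv, H.proj, H.proj]; group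
        rw [this]; group
    · obtain ⟨h6, h7⟩ := h5
      obtain ⟨g, hg, hg'⟩ := td_spec h7
      have e1 : v.1 = γ • z₀ := by rw [h6, h2]
      have e2 : v.2 = (g * γ') • b₀ := by rw [← hg', h3, mul_smul]
      refine ⟨γ, g * γ', h1, e1, e2, uniq v _ _ e1 e2 hv ?_⟩
      rw [H.mul, mul_assoc, mul_assoc]
      refine (FreeGroup.norm_mul_le _ _).trans ?_
      have := H.norm_le g (γ' • b₀)
      rw [← mul_assoc]
      omega

/-- the test functions -/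
noncomputable def tf (S' : Type) [DecidableEq S'] [MulAction (FreeGroup S') K]
    (c : M → K) (r ℓ : ℕ) (ι : Z → M) (z : Z) (h : Set (Z × M) → ℝ) (b : M) : ℝ :=
  Wt S' ℓ (c (ι z)) (c b) * h (cl S' c r ℓ ι (z, b))

lemma tf_abs_le (c : M → K) (r ℓ : ℕ) (ι : Z → M) (z : Z) {h : Set (Z × M) → ℝ}
    (hh : ∀ C, |h C| ≤ 1) (b : M) : |tf S' c r ℓ ι z h b| ≤ 1 := by
  rw [tf, abs_mul, abs_of_nonneg (Wt_nonneg _ _ _)]
  exact mul_le_one₀ (Wt_le_one _ _ _) (abs_nonneg _) (hh _)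

lemma tf_lip (c : M → K) {r ℓ : ℕ} (hr : 0 < r) (hrℓ : r ≤ ℓ) (ι : Z → M) (z : Z)
    {h : Set (Z × M) → ℝ} (hh : ∀ C, |h C| ≤ 1) (b b' : M) :
    |tf S' c r ℓ ι z h b - tf S' c r ℓ ι z h b'| ≤ 2 / r * DD S' c r ℓ b b' := by
  have hr' : (0 : ℝ) < r := by exact_mod_cast hr
  have hrℓ' : (r : ℝ) ≤ ℓ := by exact_mod_cast hrℓ
  rcases (td_le (S := Bool) r b b').lt_or_eq with h1 | h1
  · have h2 : |tf S' c r ℓ ι z h b - tf S' c r ℓ ι z h b'| ≤
        |Wt S' ℓ (c (ι z)) (c b) - Wt S' ℓ (c (ι z)) (c b')| := by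
      refine abs_mul_sub_mul_le (Wt_nonneg _ _ _) (Wt_nonneg _ _ _) (hh _) (hh _) ?_
      intro e1 e2
      rw [cl_eq_of_step (u := (z, b)) (v := (z, b'))
        ⟨near_of_Wt_ne (by omega) e1, near_of_Wt_ne (by omega) e2, Or.inr ⟨rfl, h1⟩⟩]
    refine h2.trans ((Wt_lip_right _ _ _ _).trans ?_)
    have h3 := td_le_DD' (S' := S') c r ℓ b b'
    have h4 := DD_nonneg (S' := S') c r ℓ b b'
    calc (td S' ℓ (c b) (c b') : ℝ) / ℓ ≤ DD S' c r ℓ b b' / r := by gcongr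
      _ = 1 / r * DD S' c r ℓ b b' := by ring
      _ ≤ _ := by gcongr; norm_num
  · have h2 := td_le_DD (S' := S') c r ℓ b b'
    rw [h1] at h2
    have h3 := tf_abs_le (S' := S') c r ℓ ι z hh b
    have h4 := tf_abs_le (S' := S') c r ℓ ι z hh b'
    have h5 := abs_sub (tf S' c r ℓ ι z h b) (tf S' c r ℓ ι z h b')
    calc _ ≤ (2 : ℝ) := by linarith
      _ = 2 / r * r := by field_simp
      _ ≤ _ := by gcongr

lemma tf_shift {c : M → K} {α : FreeGroup Bool → M → FreeGroup S'}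
    {p : FreeGroup S' →* FreeGroup Bool} {r ℓ : ℕ} (H : Hyp c α p r ℓ) {ι : Z → M}
    (hι : ∀ (g : FreeGroup Bool) z, ι (g • z) = g • ι z) (z : Z) (s : Bool)
    {h : Set (Z × M) → ℝ} (hh : ∀ C, |h C| ≤ 1) (b : M) :
    |tf S' c r ℓ ι ((of s : FreeGroup Bool) • z) h b - tf S' c r ℓ ι z h b| ≤ 1 / ℓ := by
  have hℓ : 0 < ℓ := H.r_pos.trans_le H.r_le
  have h2 : |tf S' c r ℓ ι ((of s : FreeGroup Bool) • z) h b - tf S' c r ℓ ι z h b| ≤
      |Wt S' ℓ (c (ι ((of s : FreeGroup Bool) • z))) (c b) - Wt S' ℓ (c (ι z)) (c b)| := by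
    refine abs_mul_sub_mul_le (Wt_nonneg _ _ _) (Wt_nonneg _ _ _) (hh _) (hh _) ?_
    intro e1 e2
    rw [cl_eq_of_step (u := (z, b)) (v := ((of s : FreeGroup Bool) • z, b))
      ⟨near_of_Wt_ne hℓ e2, near_of_Wt_ne hℓ e1, Or.inl ⟨of s, by simp, rfl, rfl⟩⟩]
  refine h2.trans ?_
  rw [Wt_comm ℓ _ (c b), Wt_comm ℓ _ (c b), abs_sub_comm]
  refine (Wt_lip_right _ _ _ _).trans ?_
  have h3 : td S' ℓ (c (ι z)) (c (ι ((of s : FreeGroup Bool) • z))) ≤ 1 := by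
    refine (td_le_norm ℓ (α (of s) (ι z)) (by rw [hι, H.equiv])).trans ?_
    simpa using H.norm_le (of s) (ι z)
  have h4 : (td S' ℓ (c (ι z)) (c (ι ((of s : FreeGroup Bool) • z))) : ℝ) ≤ 1 := by
    exact_mod_cast h3
  gcongr

lemma DD_shift {c : M → K} {α : FreeGroup Bool → M → FreeGroup S'}
    {p : FreeGroup S' →* FreeGroup Bool} {r ℓ : ℕ} (H : Hyp c α p r ℓ) (x : M) (s : Bool) :
    DD S' c r ℓ ((of s : FreeGroup Bool) • x) x ≤ 1 := by
  rw [DD_comm]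
  have h1 : td Bool r x ((of s : FreeGroup Bool) • x) ≤ 1 :=
    (td_le_norm r (of s) rfl).trans (by simp)
  have h3 : td S' ℓ (c x) (c ((of s : FreeGroup Bool) • x)) ≤ 1 := by
    refine (td_le_norm ℓ (α (of s) x) (by rw [H.equiv])).trans ?_
    simpa using H.norm_le (of s) x
  unfold DD
  exact_mod_cast (by omega)

end gadget

end Crest.Agent.R115
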