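import Crest.Agent.R115.Free

/-!
Gluing the pieces along a base point.
-/

set_option autoImplicit false

namespace Crest.Agent.R115

open Crest.AnalysisR

/-- the distance of the glued space -/
noncomputable def totD (pc : ℕ → Piece) : Option (ℕ × ℕ) → Option (ℕ × ℕ) → ℝ
  | none, none => 0
  | none, some q => (pc q.1).R
  | some q, none => (pc q.1).R
  | some q, some q' => if q.1 = q'.1 then (pc q.1).d q.2 q'.2 else (pc q.1).R + (pc q'.1).R

lemma Piece.d_nonneg (P : Piece) (x y : ℕ) : 0 ≤ P.d x y := by
  have := P.d_triangle x y x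
  rw [P.d_self, P.d_comm y x] at this
  linarith

lemma totD_one_le (pc : ℕ → Piece) (x y : Option (ℕ × ℕ)) (h : x ≠ y) : 1 ≤ totD pc x y := by
  rcases x with _ | ⟨k, a⟩ <;> rcases y with _ | ⟨k', b⟩
  · exact absurd rfl h
  · exact (pc k').one_le_R
  · exact (pc k).one_le_R
  · simp only [totD]
    split_ifs with hk
    · subst hk
      exact (pc k).one_le a b fun hab => h (by rw [hab])
    · linarith [(pc k).one_le_R, (pc k').one_le_R]

lemma totD_self (pc : ℕ → Piece) (x : Option (ℕ × ℕ)) : totD pc x x = 0 := by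
  rcases x with _ | ⟨k, a⟩
  · rfl
  · simp [totD, (pc k).d_self]

/-- the glued metric space -/
@[reducible] noncomputable def totMetric (pc : ℕ → Piece) : MetricSpace (Option (ℕ × ℕ)) where
  dist := totD pc
  dist_self := totD_self pc
  dist_comm x y := by
    rcases x with _ | ⟨k, a⟩ <;> rcases y with _ | ⟨k', b⟩
    · rfl
    · rfl
    · rfl
    · simp only [totD]
      by_cases hk : k = k'
      · subst hk; simp [(pc k).d_comm a b]
      · rw [if_neg hk, if_neg (Ne.symm hk), add_comm]
  dist_triangle x y z := by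
    rcases x with _ | ⟨k, a⟩ <;> rcases y with _ | ⟨k', b⟩ <;> rcases z with _ | ⟨k'', c⟩ <;>
      simp only [totD]
    · simp
    · simp
    · linarith [(pc k').one_le_R]
    · split_ifs with h1
      · subst h1; linarith [(pc k').d_nonneg b c]
      · linarith [(pc k').one_le_R]
    · simp
    · split_ifs with h1
      · subst h1; linarith [(pc k).le_R a c, (pc k).one_le_R]
      · exact le_rfl
    · split_ifs with h1
      · subst h1; linarith [(pc k).d_nonneg a b]
      · linarith [(pc k').one_le_R]
    · split_ifs with h1 h2 h3 h4 h5 h6 h7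
      · subst h1; subst h2; exact (pc k).d_triangle a b c
      · exact absurd (h2.symm.trans h1) h3
      · exact absurd (h1.trans h4.symm) h2
      · subst h1; linarith [(pc k).le_R a c, (pc k).one_le_R, (pc k').one_le_R]
      · exact absurd (h5.trans h6) h1
      · subst h5; linarith [(pc k).d_nonneg a b]
      · subst h7; linarith [(pc k').d_nonneg b c]
      · linarith [(pc k').one_le_R]
  eq_of_dist_eq_zero {x y} h := by
    by_contra hne
    have := totD_one_le pc x y hne
    linarith

/-- the glued pointed space -/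
@[reducible] noncomputable def totP (pc : ℕ → Piece) : PointedMetric where
  M := Option (ℕ × ℕ)
  metric := totMetric pc
  base := none

theorem totP_props (pc : ℕ → Piece) (hR : ∀ k : ℕ, (k : ℝ) ≤ (pc k).R) :
    (totP pc).IsCountableSeparatedUnboundedNonproper := by
  let := totMetric pc
  refine ⟨inferInstanceAs (Countable (Option (ℕ × ℕ))), totD_one_le pc, ?_, ?_⟩
  · intro h
    obtain ⟨C, hC⟩ := Metric.isBounded_iff.1 h
    obtain ⟨k, hk⟩ := exists_nat_gt C
    have : (pc k).R ≤ C := hC (x := none) (Set.mem_univ _) (y := some (k, 0)) (Set.mem_univ _)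
    linarith [hR k]
  · intro h
    have hc : IsCompact (Metric.closedBall (none : Option (ℕ × ℕ)) (pc 0).R) :=
      isCompact_closedBall _ _
    obtain ⟨t, -, ht, hcov⟩ := Metric.finite_approx_of_totallyBounded hc.totallyBounded (1 / 2)
      (by norm_num)
    have hsub : Set.range (fun a : ℕ => (some (0, a) : Option (ℕ × ℕ))) ⊆ t := by
      rintro _ ⟨a, rfl⟩
      have hmem : (some (0, a) : Option (ℕ × ℕ)) ∈
          Metric.closedBall (none : Option (ℕ × ℕ)) (pc 0).R := le_refl (pc 0).R
      obtain ⟨y, hy, hy'⟩ := Set.mem_iUnion₂.1 (hcov hmem)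
      by_cases e : (some (0, a) : Option (ℕ × ℕ)) = y
      · rw [← e] at hy; exact hy
      · have h1 := totD_one_le pc _ _ e
        have h2 : totD pc (some (0, a)) y < 1 / 2 := hy'
        linarith
    exact Set.infinite_range_of_injective (fun a b hab => by simpa using hab) (ht.subset hsub)

theorem totP_hasAP (pc : ℕ → Piece) : HasAP (totP pc).FreeSpace := by
  refine hasAP_of_levels (totP pc) (fun x => match x with
    | none => 0
    | some q => q.1) (totD_one_le pc) ?_ ?_
  · intro k
    have h0 : ∀ i, 0 < (pc i).R := fun i => one_pos.trans_le (pc i).one_le_R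
    have h1 : 0 < ∑ i ∈ Finset.range (k + 1), (pc i).R :=
      Finset.sum_pos (fun i _ => h0 i) ⟨0, by simp⟩
    refine ⟨_, h1, ?_⟩
    rintro (_ | ⟨i, a⟩) hx
    · exact h1.le
    · exact Finset.single_le_sum (f := fun i => (pc i).R) (fun i _ => (h0 i).le)
        (Finset.mem_range.2 (Nat.lt_succ_of_le hx))
  · rintro (_ | ⟨i, a⟩) (_ | ⟨j, b⟩) h
    · exact le_rfl
    · exact zero_le_one.trans (pc j).one_le_R
    · exact le_rfl
    · change (pc i).R ≤ totD pc (some (i, a)) (some (j, b))
      simp only [totD]
      rw [if_neg (ne_of_lt h)]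
      linarith [(pc j).one_le_R]

theorem totP_not_hasBAP (pc : ℕ → Piece) (hdef : ∀ k : ℕ, (pc k).Defeats k) :
    ¬ HasBAP (totP pc).FreeSpace := by
  refine not_hasBAP_of_pieces (totP pc) pc hdef (fun k a => some (k, a))
    (fun k a b hab => by simpa using hab) ?_ (fun k a => le_refl (pc k).R) ?_ ?_
  · intro k a b
    change totD pc (some (k, a)) (some (k, b)) = _
    simp [totD]
  · rintro k ⟨a, ha⟩
    cases ha
  · rintro k a (_ | ⟨j, b⟩) hy
    · exact le_refl (pc k).R
    · change (pc k).R ≤ totD pc (some (k, a)) (some (j, b))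
      simp only [totD]
      rw [if_neg (fun h : k = j => hy ⟨b, by rw [h]⟩)]
      linarith [(pc j).one_le_R]

theorem main : ∃ P : PointedMetric, P.IsCountableSeparatedUnboundedNonproper ∧
    HasAP P.FreeSpace ∧ ¬ HasBAP P.FreeSpace := by
  choose pc h1 h2 using exists_piece
  exact ⟨totP pc, totP_props pc h1, totP_hasAP pc, totP_not_hasBAP pc h2⟩

end Crest.Agent.R115
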